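import Crest.Agent.X212.An.Asm

/-!
# X212 / RFQ-TRQ (helper48), part 3: regularising isolated classes one by one
-/

set_option autoImplicit false
set_option linter.unusedSectionVars false
noncomputable section
open scoped Topology
open Set Function Filter

namespace Crest.Agent.X212.Trq48
open An

variable {W Y : Type} {G : (W →₀ ℝ) → Prop} {e : Setoid Y} {S R : (W →₀ ℝ) → Y → Prop}
  {L : ∀ α : Type, Ultrafilter α → (α → Y) → Y → Prop}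

variable (G e S R L) in
/-- compactness, openness, uniqueness near a class, and a regularising perturbation -/
structure Cnt : Prop where
  op : St.IsOp G
  cp : ∀ q₀, G q₀ → ∀ α (𝒰 : Ultrafilter α) q (y : α → Y), St.Cv (𝒰 : Filter α) q q₀ →
    (∀ᶠ k in (𝒰 : Filter α), G (q k) ∧ S (q k) (y k)) → ∃ y₀, S q₀ y₀ ∧ L α 𝒰 y y₀
  ev : ∀ q₀, G q₀ → ∀ α (𝒰 : Ultrafilter α) q (y : α → Y) y₀, St.Cv (𝒰 : Filter α) q q₀ →
    (∀ᶠ k in (𝒰 : Filter α), G (q k) ∧ S (q k) (y k)) → S q₀ y₀ → L α 𝒰 y y₀ → R q₀ y₀ →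
    ∀ᶠ k in (𝒰 : Filter α), R (q k) (y k)
  uq : ∀ q₀, G q₀ → ∀ α (𝒰 : Ultrafilter α) q (y y' : α → Y) y₀ y₀', St.Cv (𝒰 : Filter α) q q₀ →
    (∀ᶠ k in (𝒰 : Filter α), G (q k) ∧ S (q k) (y k) ∧ S (q k) (y' k)) → S q₀ y₀ → S q₀ y₀' →
    e y₀ y₀' → L α 𝒰 y y₀ → L α 𝒰 y' y₀' → ∀ᶠ k in (𝒰 : Filter α), e (y k) (y' k)
  rf : ∀ q y α 𝒰, S q y → L α 𝒰 (fun _ => y) y
  nt : ∀ q y, G q → S q y → ∃ qq : ℕ → W →₀ ℝ, St.Cv atTop qq q ∧ ∀ 𝒰 : Ultrafilter ℕ,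
    (𝒰 : Filter ℕ) ≤ atTop → ∀ z y', S q y' → e y' y →
      (∀ᶠ k in (𝒰 : Filter ℕ), G (qq k) ∧ S (qq k) (z k)) → L ℕ 𝒰 z y' →
      ∀ᶠ k in (𝒰 : Filter ℕ), R (qq k) (z k)

theorem cv_mono {α : Type} {l l' : Filter α} {q : α → W →₀ ℝ} {q₀ : W →₀ ℝ} (h : St.Cv l q q₀)
    (k : l' ≤ l) : St.Cv l' q q₀ := h.imp fun _ h => ⟨h.1, fun w => (h.2 w).mono_left k⟩

variable (e S R) in
/-- the classes of singular solutions -/
def Bad (q : W →₀ ℝ) : Set (Quotient e) := Quotient.mk e '' {y | S q y ∧ ¬R q y}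

namespace Cnt
variable (H : Cnt G e S R L) {q : W →₀ ℝ} {y : Y}
include H

theorem fin (hq : G q) : (Bad e S R q).Finite := by
  by_contra hn
  let f := Set.Infinite.natEmbedding _ hn
  choose z h1 h2 using fun n => (f n).2
  obtain ⟨y₀, h3, h4⟩ := H.cp q hq ℕ (hyperfilter ℕ) _ z (St.cv_const _ q)
    (.of_forall fun n => ⟨hq, (h1 n).1⟩)
  have h5 := H.uq q hq ℕ (hyperfilter ℕ) _ z (fun _ => y₀) y₀ y₀ (St.cv_const _ q)
    (.of_forall fun n => ⟨hq, (h1 n).1, h3⟩) h3 h3 (e.refl _) h4 (H.rf q y₀ _ _ h3)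
  obtain ⟨i, hi, j, hj, k⟩ :=
    (show Set.Infinite _ from fun hf => notMem_hyperfilter_of_finite hf h5).nontrivial
  exact k (f.injective (Subtype.ext ((h2 i).symm.trans
    ((Quotient.sound (e.trans hi (e.symm hj))).trans (h2 j)))))

theorem step (hq : G q) (a : S q y) (b : ¬R q y) {O : (W →₀ ℝ) → Prop} (hO : St.IsOp O) (o : O q) :
    ∃ q', O q' ∧ G q' ∧ (Bad e S R q').encard < (Bad e S R q).encard := by
  by_contra! hn
  obtain ⟨qq, h1, h2⟩ := H.nt q y hq a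
  have u := Nat.hyperfilter_le_atTop
  have h3 := cv_mono h1 u
  have h4 := H.op q hq _ _ _ h3
  have : Nonempty Y := ⟨y⟩
  have : Nonempty (Quotient e) := ⟨.mk e y⟩
  obtain ⟨z, hz⟩ := (h4.and (hO q o _ _ _ h3)).mono (q := fun k => ∃ z : Quotient e → Y,
      (∀ j ∈ Bad e S R q, S (qq k) (z j) ∧ ¬R (qq k) (z j)) ∧
      InjOn (fun j => Quotient.mk e (z j)) (Bad e S R q)) (fun k hk => by
    obtain ⟨f, h5, h6⟩ := (H.fin hq).exists_injOn_of_encard_le (hn _ hk.2 hk.1)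
    choose! z h7 h8 using fun j (hj : j ∈ Bad e S R q) => h5 hj
    exact ⟨z, h7, h6.congr fun j hj => (h8 j hj).symm⟩) |>.choice
  have s := fun j (hj : j ∈ Bad e S R q) => (h4.and hz).mono fun k hk =>
    And.intro hk.1 (hk.2.1 j hj).1
  choose! w h5 h6 using fun j (hj : j ∈ Bad e S R q) =>
    H.cp q hq ℕ _ qq (fun k => z k j) h3 (s j hj)
  have m : MapsTo (fun j => Quotient.mk e (w j)) (Bad e S R q) (Bad e S R q) := fun j hj =>
    ⟨_, ⟨h5 j hj, fun r => let ⟨_, k⟩ := ((H.ev q hq ℕ _ qq _ _ h3 (s j hj) (h5 j hj) (h6 j hj)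
      r).and hz).exists; (k.2.1 j hj).2 k.1⟩, rfl⟩
  obtain ⟨j, hj, h7⟩ := (((H.fin hq).injOn_iff_bijOn_of_mapsTo m).1 fun j hj j' hj' k =>
    let ⟨_, k⟩ := ((H.uq q hq ℕ _ qq _ _ _ _ h3 (((s j hj).and (s j' hj')).mono fun _ k =>
      ⟨k.1.1, k.1.2, k.2.2⟩) (h5 j hj) (h5 j' hj') (Quotient.exact k) (h6 j hj)
      (h6 j' hj')).and hz).exists
    k.2.2 hj hj' (Quotient.sound k.1)).surjOn ⟨y, ⟨a, b⟩, rfl⟩
  obtain ⟨k, h8, h9⟩ := ((h2 _ u _ _ (h5 j hj) (Quotient.exact h7) (s j hj) (h6 j hj)).and hz).exists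
  exact (h9.1 j hj).2 h8

theorem low : Low.Ax ⟨G, fun q => G q ∧ ∀ y, S q y → R q y⟩ where
  le _ := And.left
  op q₀ h α l q hq := (H.op q₀ h.1 α l q hq).and (mem_iff_ultrafilter.2 fun 𝒰 u => by
    by_contra hn
    obtain ⟨y, hy⟩ := ((Ultrafilter.eventually_not.2 hn).mono
      (q := fun k => ∃ y, S (q k) y ∧ ¬R (q k) y) fun k hk => by simpa using hk).choice
    have c := cv_mono hq u
    have s := ((H.op q₀ h.1 _ _ _ c).and hy).mono fun _ k => And.intro k.1 k.2.1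
    obtain ⟨y₀, h1, h2⟩ := H.cp q₀ h.1 α 𝒰 q y c s
    obtain ⟨k, h3⟩ := ((H.ev q₀ h.1 α 𝒰 q y y₀ c s h1 h2 (h.2 y₀ h1)).and hy).exists
    exact h3.2.2 h3.1)
  ex O hO q₀ h1 h2 := by
    induction h : (Bad e S R q₀).encard using WellFoundedLT.induction generalizing q₀ with
    | ind n ih =>
      by_cases k : ∀ y, S q₀ y → R q₀ y
      · exact ⟨q₀, h2, h1, k⟩
      push Not at k
      obtain ⟨y, a, b⟩ := k
      obtain ⟨q', h3, h4, h5⟩ := H.step h1 a b hO h2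
      exact ih _ (h ▸ h5) q' h4 h3 rfl

end Cnt
end Crest.Agent.X212.Trq48
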