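import Crest.Agent.X212.Trq48.Main
import Crest.Agent.X212.Tm38.Tq

/-! # X212 / RFQ-TRQ (helper48): the leaf `Qab60.TrqStmt` -/

set_option autoImplicit false
namespace Crest.Agent.X212.Trq48

/-- **LEAF TRQ** -/
theorem trqStmt {κ lam : Type} [Fintype κ] [Fintype lam] [DecidableEq lam] (Lm : G75.LM κ lam) :
    Qab60.TrqStmt Lm := Tm38.Tq.trq Lm fun _ _ _ _ _ _ _ _ _ _ _ H => H.trL

end Crest.Agent.X212.Trq48
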