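import Crest.Agent.X212.Trq48.Ob
import Crest.Agent.X212.Trq48.Cn

/-!
# X212 / RFQ-TRQ (helper48), part 4: transversality inside the wall is generic
-/

set_option autoImplicit false
set_option linter.unusedSectionVars false
noncomputable section
open scoped Manifold ContDiff Topology Real
open Set Function Filter

namespace Crest.Agent.X212.Trq48
open An M Nd18 Rf65 Qab60 Mp86.St Eqv71
open An.Job (Sol SolOn StrOn Str Obc)
open Real (cos sin)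
open Hol14 (flux)

variable {Wi : Type} {X : Mf 4} {A κ lam : Type} [Fintype A] [Fintype κ] [Fintype lam]
  [DecidableEq lam] {M : Mark X A κ} {W : World M} {N : ML M lam} {Λ : Lns W N}
  {A' h : Type} [Fintype A'] [DecidableEq A'] [Fintype h] {r n : ℕ}
  {J : Job Wi Λ A' h r n} {c : M.Cl} {R : A} {P : HD J c R} {δ k : ℝ} {sh : Set A'} {σ : Cel A'}
  {Adm G : (Wi →₀ ℝ) → Prop} {n₀ : ℤ} {e : Bool → A'} {q q' q₀ : Wi →₀ ℝ} {y y' y₀ : J.Obc c}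
  {s : A' → ℝ} {m : P.𝒩} {l : h} {α : Type} {𝒰 : Ultrafilter α} {x : Cg' W c lam r}

/-! ### words which are not seen -/

theorem sum_eq {V : Type} [AddCommGroup V] [Module ℝ V] {f : Wi → V} (k : ∀ w, q w ≠ q' w → f w = 0) :
    (q.sum fun w a => a • f w) = q'.sum fun w a => a • f w := by
  rw [← sub_eq_zero, ← Finsupp.sum_sub_index fun _ _ _ => sub_smul _ _ _]
  exact Finset.sum_eq_zero fun w hw => (congrArg _
    (k w (sub_ne_zero.1 (Finsupp.mem_support_iff.1 hw)))).trans (smul_zero _)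

section
variable (nil : ∀ a, Nl J a)
include nil

theorem eD_eq {z} (k : ∀ w, q w ≠ q' w →
    J.co w s • x.tD (J.B c) (J.G c s).F ((J.tp c).tm (J.tw w)) z = 0) :
    x.eD (J.G c s) (J.τ c q s) z = x.eD (J.G c s) (J.τ c q' s) z :=
  congrArg (fun t => _ - (_ + t)) (sum_eq (f := fun w => (J.τw c s w).D x z) fun w hw => by
    simpa [Job.τw, Pt.add, Pt.smul, An.tmP, Pt.dsum, fsum, fun a => (nil a).2] using k w hw)

theorem eC_eq {z} (k : ∀ w, q w ≠ q' w →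
    J.co w s • x.tC (J.B c) (J.G c s).F ((J.tp c).tm (J.tw w)) z = 0) :
    x.eC (J.B c) (J.G c s) (J.τ c q s) z = x.eC (J.B c) (J.G c s) (J.τ c q' s) z :=
  congrArg (fun t => _ - (_ + t)) (sum_eq (f := fun w => (J.τw c s w).C x z) fun w hw => by
    simpa [Job.τw, Pt.add, Pt.smul, An.tmP, Pt.dsum, fsum, fun a => (nil a).2] using k w hw)

theorem eS_eq {i} (k : ∀ w, q w ≠ q' w → J.co w s • x.tS (J.G c s).F ((J.tp c).tm (J.tw w)) i = 0) :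
    (J.τ c q s).S x i = (J.τ c q' s).S x i :=
  congrArg (_ + ·) (sum_eq (f := fun w => (J.τw c s w).S x i) fun w hw => by
    simpa [Job.τw, Pt.add, Pt.smul, An.tmP, Pt.dsum, fsum, fun a => (nil a).2] using k w hw)

end

theorem σc_eq (k : ∀ w, q w ≠ q' w → J.cc l w s = 0) : J.σc c q s l = J.σc c q' s l :=
  funext fun x => by
    simp only [Job.σc, mul_smul]
    exact sum_eq fun w hw => by rw [k w hw, zero_smul]

theorem cl_neg {ξ} {m' : P.𝒩} (a : P.Cl s x ξ m) : P.Cl s x (fun z => -ξ z) m' ↔ -P.v m = P.v m' := by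
  simp only [HD.Cl, xf, Abel74.fm_neg, neg_mul, Int54.integ_neg, funext_iff, Pi.neg_apply] at a ⊢
  simp only [a]

theorem cl_iff {ξ} {m' : P.𝒩} (a : P.Cl s x ξ m) : P.Cl s x ξ m' ↔ P.v m = P.v m' :=
  funext_iff.symm.trans (by rw [funext a])

namespace Cq
variable (H : Cq P δ k sh σ Adm n₀ e)
include H

theorem so_congr (a : SolOn (pO J c sh σ R) σ q' y) (k : ∀ w, q w ≠ q' w →
    (J.co w y.s = 0 ∨ (J.tw w).Van (M.sys.U (hp R true))) ∧ ∀ l, ¬Inn J R l → J.cc l w y.s = 0) :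
    SolOn (pO J c sh σ R) σ q y := by
  have v := fun w (t : (J.tw w).Van (M.sys.U (hp R true))) => Wrd81.van_tm
    (Job.isClopen_un H.pok.pc) (H.ok.tame H.mem a.ov) (ad0 a.adm) a.off
    (Job.van_tp (J := J) H.pok.pc (τ := J.tw w) (by rwa [show (pO J c sh σ R).P = {_} from rfl, biUnion_singleton]))
  exact { a with
    D := fun z hz => (eD_eq H.nil fun w hw => (k w hw).1.elim (fun t => by rw [t, zero_smul])
      fun t => by rw [((v w t).1 z hz).1, smul_zero]).trans (a.D z hz)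
    C := fun z hz => (eC_eq H.nil fun w hw => (k w hw).1.elim (fun t => by rw [t, zero_smul])
      fun t => by rw [((v w t).1 z hz).2, smul_zero]).trans (a.C z hz)
    S := fun i => (eS_eq H.nil fun w hw => (k w hw).1.elim (fun t => by rw [t, zero_smul])
      fun t => by rw [(v w t).2, Pi.zero_apply, smul_zero]).trans (a.S i)
    cut := fun i hi => σc_eq (fun w hw => (k w hw).2 i (H.not_inn hi)) ▸ a.cut i hi }

theorem mono (le : ∀ q, G q → Adm q) : Cq P δ k sh σ G n₀ e :=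
  have O := H.hd
  { H with
    fin := H.fin.subset fun _ ⟨q, y, a, b⟩ => ⟨q, y, le q a, b⟩
    rch := ⟨H.rch.S, H.rch.C, fun ρ t => (H.rch.T ρ t).imp id fun k q y a => k q y (le q a)⟩
    kill := fun q y a => H.kill q y (le q a)
    num := fun q y x a => H.num q y x (le q a)
    hd := { O with
      cls := fun q s x ξ a => O.cls q s x ξ (le q a)
      lim := fun q s x ξ m a => O.lim q s x ξ m (le q a)
      uq := fun q s x ξ x' ξ' m a => O.uq q s x ξ x' ξ' m (le q a)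
      ex := fun q s x a => O.ex q s x (le q a)
      flx := fun q s x ξ a => O.flx q s x ξ (le q a)
      sm := fun m S θ a b => let ⟨U, Φ, h1, h2, h3⟩ := O.sm m S θ a b
        ⟨U, Φ, h1, h2, fun q a => h3 q (le q a)⟩
      loc := fun m q σ s s' a => O.loc m q σ s s' (le q a)
      crn := O.crn.imp fun _ k => ⟨k.1, fun q σ s b a => k.2 q σ s b (le q a)⟩
      mov := fun q s x ξ m a b => O.mov q s x ξ m (le q a) fun w => (b w).mono fun _ => le _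
      taf := fun q σ s x ξ m b a => O.taf q σ s x ξ m b (le q a) }
    out := fun q y a => H.out q y (le q a)
    lev := fun q y a => H.lev q y (le q a) }

end Cq

variable (P σ n₀) in
/-- face objects with their class -/
def Sq (q : Wi →₀ ℝ) (y : J.Obc c) (m : P.𝒩) : Prop := Sol σ q y ∧ FA J c σ n₀ y R ∧
  ∃ ξ, Ab (J.B c) (J.G c y.s) (oI W c R) y.x ξ ∧ P.Cl y.s y.x ξ m

variable (P δ k sh σ G n₀ e) in
/-- after the first stage -/
structure Cz : Prop extends Cq P δ k sh σ G n₀ e where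
  op : St.IsOp G
  g1 : ∀ q, G q → G1 J c δ sh σ n₀ q ∧ Cg J c σ G q
  sep : Sep J
  clc : ClcL J c
  ksc : KscL J c
  kgen : KgenL J c

namespace Cz
variable (H : Cz P δ k sh σ G n₀ e)
include H

theorem fc (a : G q) (hy : Sol σ q y) : Fc J c σ n₀ y R ∧
    (¬y.TF (hp R false) → Ok δ y (pO J c sh σ R) ∧ RegO J c δ sh σ q y R) := by
  obtain ⟨x', t⟩ := (H.g1 q a).1 y hy fun t =>
    (singleton_nonempty R).ne_empty (H.c1.symm.trans (congrArg Subtype.val t.1))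
  rwa [singleton_injective (H.c1.symm.trans t.1.2.1)]

theorem lv (a : G q) (b : Sq P σ n₀ q y m) : y.kap (oI W c R) = k :=
  (H.lev q y a b.1 b.2.1 ((H.fc a b.1).2 b.2.1.2.1).1).1

theorem wq (a : G q) (b : Sq P σ n₀ q y m) : WO P k sh σ q y m :=
  let ⟨_, t, u⟩ := b.2.2; H.wo a b.1 b.2.1 (H.lv a b) t u

theorem sn (a : G q) (b : Sq P σ n₀ q y m) : sin (2 * π * P.H m q y.s) ≠ 0 :=
  H.sin_ne (H.wq a b) ((H.num q y R a b.1 b.2.1.1).2.2 b.2.1.2.1 ((H.fc a b.1).2 b.2.1.2.1).1).1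

/-- compactness -/
theorem lim (a : G q₀) {q : α → Wi →₀ ℝ} {y : α → J.Obc c} {m : α → P.𝒩}
    (cv : St.Cv (𝒰 : Filter α) q q₀)
    (d : ∀ᶠ i in (𝒰 : Filter α), G (q i) ∧ Sq P σ n₀ (q i) (y i) (m i)) :
    ∃ y₀ m₀, Sq P σ n₀ q₀ y₀ m₀ ∧ Str 𝒰 y y₀ ∧ ∀ᶠ i in (𝒰 : Filter α), m i = m₀ := by
  obtain ⟨y₀, h1, h2⟩ := (H.g1 q₀ a).2 α 𝒰 q y cv (d.mono fun _ k => ⟨k.1, k.2.1⟩)
  obtain ⟨m₀, h3⟩ := Ultrafilter.eventually_exists_iff.1
    (.of_forall fun i => ⟨m i, rfl⟩ : ∀ᶠ i in (𝒰 : Filter α), ∃ m₀, m i = m₀)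
  exact ⟨y₀, m₀, ⟨h1, ⟨(H.fc a h1).1, fun t => let ⟨_, k⟩ := (d.and (h2.tf t)).exists
      k.1.2.2.1.2.1 k.2, H.lin α 𝒰 y y₀ _ (hp_mem H.c1 _) (h1.ok H.ok H.mem)
      (d.mono fun _ k => ⟨k.2.1.ok H.ok H.mem, k.2.2.1.2.2⟩) h2⟩,
    H.clc H.ok σ H.mem _ _ P.ε (P.v m₀) H.hd.cl H.hd.cs α 𝒰 q y q₀ y₀
      ((d.and h3).mono fun _ k => ⟨k.1.2.1, k.2 ▸ k.1.2.2.2⟩) h1 h2⟩, h2, h3⟩

/-- the first step -/
theorem hy : Hy G (fun w => (J.tw w).Van (M.sys.U (hp R true)) ∧ ∀ l, J.cc l w = 0) (Kq P σ e)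
    fun q m t => ∃ y, Sq P σ n₀ q y m ∧ tt e y.s = t where
  op := H.op
  sm := H.smo
  mem _ _ _ _ := fun ⟨_, b, t⟩ => t ▸ H.tt_mem (ovc H.mem b.1)
  mov q m _ a := fun ⟨y, b, t⟩ => by
    obtain ⟨ξ, u, v⟩ := (H.wq a b).ai
    have o := fun w => H.op q a _ _ _ (cv_single q w)
    obtain ⟨w, h1, h2, h3⟩ := H.hd.mov q _ _ ξ m a o u v
    refine ⟨w, ⟨h1, h2⟩, ?_⟩
    refine t ▸ (((differentiableAt_of_deriv_ne_zero h3).hasDerivAt.const_mul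
      (2 * π)).cos.congr_of_eventuallyEq ((o w).mono fun _ g =>
        congrArg (fun u => cos (2 * π * u)) (H.H_pth g (ovc H.mem b.1)))).deriv.trans_ne ?_
    simpa [h3] using H.sn a b
  cp q₀ a α 𝒰 q m t cv d := by
    obtain ⟨s, hs⟩ := H.ne
    obtain ⟨_, -, y', -⟩ := d.exists
    have : Nonempty (J.Obc c) := ⟨y'⟩
    obtain ⟨y, hy⟩ := (d.mono fun _ k => k.2).choice
    obtain ⟨y₀, m₀, h1, h2, h3⟩ := H.lim a cv ((d.and hy).mono fun _ k => ⟨k.1.1, k.2.1⟩)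
    refine ⟨m₀, _, ⟨y₀, h1, rfl⟩, h3,
      ((tt_cont.tendsto _).comp h2.s).congr' (hy.mono fun _ k => k.2), fun I => ?_⟩
    have g := (H.fc a h1.1).2 h1.2.1.2.1
    have w := H.wq a h1
    have so := fun i => H.so_congr w.so (q := q i) fun w hw =>
      ⟨.inr (I i w hw).1, fun l _ => congrFun ((I i w hw).2 l) _⟩
    filter_upwards [d, hy, h3, H.out q₀ y₀ a h1.1 h1.2.1 g.2 g.1 α 𝒰 q y (fun _ => y₀) cv
      ((d.and hy).mono fun i k => ⟨(H.wq k.1.1 k.2.1).so, so i⟩) (H.son a h1.1 h1.2.1 h2)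
      (H.son a h1.1 h1.2.1 (Pat85.str_refl H.ok H.mem h1.1))] with i b1 b2 b3 b4
    have w' := H.wq b1.1 b2.1
    rw [← b2.2, H.Kq_tt a w, H.Kq_tt b1.1 (b3 ▸ w'), (H.hd.clr.eqv
      (H.bs (w'.so.crit R H.cw true en_out)) (H.bs (w.so.crit R H.cw true en_out))).1 b4.2]

theorem mono {G' : (Wi →₀ ℝ) → Prop} (le : ∀ q, G' q → G q) (o : St.IsOp G') :
    Cz P δ k sh σ G' n₀ e :=
  ⟨H.toCq.mono le, o, fun q a => ⟨(H.g1 q (le q a)).1, fun α 𝒰 q' y cv d =>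
    (H.g1 q (le q a)).2 α 𝒰 q' y cv (d.mono fun _ k => ⟨le _ k.1, k.2⟩)⟩, H.sep, H.clc, H.ksc, H.kgen⟩

end Cz

variable (P) in
/-- the classes of face objects without the inner cut fields -/
def Eo : Setoid (J.Obc c × P.𝒩) where
  r y y' := y.2 = y'.2 ∧ (y.1 = y'.1 ∨ y.1.Ok ∧ y'.1.Ok ∧ Ceq R y.1 y'.1)
  iseqv := ⟨fun _ => ⟨rfl, .inl rfl⟩, fun e => ⟨e.1.symm,
    e.2.imp Eq.symm fun e => ⟨e.2.1, e.1, e.2.2.symm e.1 e.2.1⟩⟩, fun e e' => ⟨e.1.trans e'.1, by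
      rcases e.2 with t | t
      · exact t ▸ e'.2
      rcases e'.2 with t' | t'
      · exact .inr (t' ▸ t)
      · exact .inr ⟨t.1, t'.2.1, t.2.2.trans t'.2.2 t.1 t'.1 t'.2.1⟩⟩⟩

theorem Eo.ceq {y y' : J.Obc c × P.𝒩} (g : Eo P y y') (a : y.1.Ok) : Ceq R y.1 y'.1 :=
  g.2.elim (fun t => t ▸ .refl a) fun t => t.2.2

namespace Cz
variable (H : Cz P δ k sh σ G n₀ e)
  (T : ∀ q, G q → ∀ y m, Sq P σ n₀ q y m → deriv (Kq P σ e m q) (tt e y.s) ≠ 0)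
include H T

/-- uniqueness near a class -/
theorem nr (a : G q₀) {m'} (b : Sq P σ n₀ q₀ y₀ m) (b' : Sq P σ n₀ q₀ y' m') (g : Ceq R y' y₀)
    {q : α → Wi →₀ ℝ} {z z' : α → J.Obc c} (cv : St.Cv (𝒰 : Filter α) q q₀)
    (w : ∀ᶠ i in (𝒰 : Filter α), WO P k sh σ (q i) (z i) m ∧ WO P k sh σ (q i) (z' i) m)
    (t : Str 𝒰 z y₀) (t' : Str 𝒰 z' y') : ∀ᶠ i in (𝒰 : Filter α), Ceq R (z i) (z' i) :=
  have f := (H.fc a b.1).2 b.2.1.2.1
  H.near H.op a b.1 b.2.1 f.2 f.1 (T _ a _ _ b) cv w (H.son a b.1 b.2.1 t)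
    (strOn_post H.ok H.mem H.pok (H.wq a b').so (H.wq a b).so g.1 (H.eqP g)
      (w.mono fun _ k => ad0 k.2.so.adm) (H.son a b'.1 b'.2.1 t'))

/-- perturbation of the row of one inner cut -/
theorem pert (a : G q) (hy : Sol σ q y) (f : FA J c σ n₀ y R) {ξ}
    (b : Ab (J.B c) (J.G c y.s) (oI W c R) y.x ξ) (cl : P.Cl y.s y.x ξ m) (i : Inn J R l) :
    ∃ qq : ℕ → Wi →₀ ℝ, St.Cv atTop qq q ∧ ∀ 𝒰 : Ultrafilter ℕ, (𝒰 : Filter ℕ) ≤ atTop →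
      ∀ (z : ℕ → J.Obc c) y', Sq P σ n₀ q y' m → Ceq R y' y →
      (∀ᶠ j in (𝒰 : Filter ℕ), G (qq j) ∧ Sq P σ n₀ (qq j) (z j) m) → Str 𝒰 z y' →
      flux (W.Z c).I (J.cut c l) (xf J c y.s y.x ξ) ≠ 0 ∧
        ∀ᶠ j in (𝒰 : Filter ℕ), Line J c (qq j) (z j).s (z j).x l := by
  have o := ovc H.mem hy
  have u := H.inn_unc i
  have sq : Sq P σ n₀ q y m := ⟨hy, f, ξ, b, cl⟩
  have ai := H.ai hy (H.lv a sq) b
  obtain ⟨qq, h1, h2, h3, h4⟩ := H.kgen H.ok H.sep σ _ o _ _ ξ H.hd.cl b l u (H.inn_sub i) _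
    (H.rch.C _ hy.cell hy.inf _ (hp_mem H.c1 false) l i) q
  refine ⟨qq, h1, fun 𝒰 le z y' b' g d t => ?_⟩
  have ce := H.nr T a sq b' g (cv_mono h1 le) (d.mono fun j k => by
    have ai' : AI J c R (qq j) y.s y.x _ ξ := { ai with
      C := fun z hz => (eC_eq H.nil fun w hw => by rw [(h2 j w hw).1, Pi.zero_apply, zero_smul]).trans
        (ai.C z hz) }
    exact ⟨⟨H.so_congr (H.wq a sq).so fun w hw => ⟨.inl (congrFun (h2 j w hw).1 _),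
      fun l' n => (h2 j w hw).2 l' fun t => n (t ▸ i)⟩, ⟨ξ, ai', cl⟩,
      bk hy R ⟨H.cw, f.1.2.2.2.1.2 R H.cw⟩ ▸ (H.hd.lim _ _ _ ξ m k.1 ai' cl
        (hy.act H.ok H.mem H.cw false) _ _ (H.bs (hy.crit R H.cw false))).1 (hy.lim R false _)⟩,
      H.wq k.1 k.2⟩) (Pat85.str_refl H.ok H.mem hy) t
  have ok := hy.ok H.ok H.mem
  have ln : ∀ᶠ j in (𝒰 : Filter ℕ), Line J c (qq j) y.s y.x l → Line J c (qq j) (z j).s (z j).x l :=
    (ce.and d).mono fun j k => have ok' := k.2.2.1.ok H.ok H.mem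
      (k.1.symm ok ok').line H.ok (ovc H.mem k.2.2.1) ok' ok u
  have nz : flux (W.Z c).I (J.cut c l) (xf J c y.s y.x ξ) ≠ 0 := fun t => by
    obtain ⟨j, ⟨k1, k2⟩, k3⟩ := ((ce.and d).and ((h4 t).filter_mono le)).exists
    have ok' := k2.2.1.ok H.ok H.mem
    have ro := k2.2.1.cut l ((H.yH k2.1 k2.2.1 k2.2.2.1).1.ge trivial)
    obtain ⟨es, v, ζ, g, -⟩ := k1.symm ok ok'
    rw [es] at ro g
    have a' : Ad0 (z j).x (J.B c) (J.G c y.s) := es ▸ ok'.1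
    obtain ⟨_, -, -, t3, -⟩ := ex_mv H.ok o u a' ok.1 g
    exact k3 _ ((row_iff H.ok o u a' ok.1 g (t3 _)).2 ro)
  exact ⟨nz, (ln.and ((h3 (((H.hd.flx q _ _ ξ a ai).1 l i).resolve_right nz)).filter_mono le)).mono
    fun _ k => k.1 k.2⟩

/-- the second step -/
theorem cnt (l : h) : Cnt G (Eo P) (fun q y => Sq P σ n₀ q y.1 y.2)
    (fun q y => (P.v y.2 = P.v P.g ∨ -P.v y.2 = P.v P.g) ∧ (Inn J R l → Line J c q y.1.s y.1.x l))
    fun _ 𝒰 z y => Str 𝒰 (fun i => (z i).1) y.1 ∧ ∀ᶠ i in (𝒰 : Filter _), (z i).2 = y.2 where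
  op := H.op
  cp q₀ a α 𝒰 q y cv d := let ⟨y₀, m₀, t⟩ := H.lim a cv d; ⟨(y₀, m₀), t⟩
  ev q₀ a α 𝒰 q y y₀ cv d b t u := (t.2.mono fun _ k => k ▸ u.1).and (eventually_imp_distrib_left.2
    fun i => (H.ksc H.ok σ H.mem α 𝒰 q _ q₀ _ cv (d.mono fun _ k => k.2.1) b.1 t.1 l
      (H.inn_unc i)).1 (u.2 i))
  uq q₀ a α 𝒰 q y y' y₀ y₀' cv d b b' g t t' := by
    filter_upwards [d, t.2, t'.2, H.nr T a b b' (Eo.ceq ((Eo P).symm g) (b'.1.ok H.ok H.mem)) cv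
      ((d.and (t.2.and t'.2)).mono fun _ k => ⟨k.2.1 ▸ H.wq k.1.1 k.1.2.1,
        (k.2.2.trans g.1.symm) ▸ H.wq k.1.1 k.1.2.2⟩) t.1 t'.1] with i k1 k2 k3 k4
    exact ⟨k2.trans (g.1.trans k3.symm), .inr ⟨k1.2.1.1.ok H.ok H.mem, k1.2.2.1.ok H.ok H.mem, k4⟩⟩
  rf q y _ _ b := ⟨Pat85.str_refl H.ok H.mem b.1, .of_forall fun _ => rfl⟩
  nt q y a b := by
    obtain ⟨ξ, u, cl⟩ := b.2.2
    have fl := H.hd.flx q _ _ ξ a (H.ai b.1 (H.lv a b) u)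
    rw [cl_iff cl, cl_neg cl] at fl
    have k : ∀ l', Inn J R l' → _ := fun l' i => H.pert T a b.1 b.2.1 u cl (l := l') i
    by_cases gd : P.v y.2 = P.v P.g ∨ -P.v y.2 = P.v P.g
    · by_cases i : Inn J R l
      · obtain ⟨qq, h1, h2⟩ := k l i
        exact ⟨qq, h1, fun 𝒰 le z y' b' g d t => (t.2.mono fun _ k => (k.trans g.1) ▸ gd).and
          ((h2 𝒰 le _ _ (g.1 ▸ b') (Eo.ceq g (b'.1.ok H.ok H.mem)) ((d.and t.2).mono fun _ k =>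
            ⟨k.1.1, (k.2.trans g.1) ▸ k.1.2⟩) t.1).2.mono fun _ k _ => k)⟩
      · exact ⟨_, St.cv_const _ q, fun 𝒰 le z y' b' g d t =>
          t.2.mono fun _ k => ⟨(k.trans g.1) ▸ gd, fun j => (i j).elim⟩⟩
    · obtain ⟨l', n⟩ := not_forall.1 (mt fl.2.1 gd)
      obtain ⟨i, n⟩ := Classical.not_imp.1 n
      obtain ⟨qq, h1, h2⟩ := k l' i
      exact ⟨qq, h1, fun 𝒰 le z y' b' g d t => ((h2 𝒰 le _ _ (g.1 ▸ b') (Eo.ceq g (b'.1.ok H.ok H.mem))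
        ((d.and t.2).mono fun _ k => ⟨k.1.1, (k.2.trans g.1) ▸ k.1.2⟩) t.1).1
        ((fl.1 l' i).resolve_left n)).elim⟩

end Cz

/-- **transversality inside is generic** -/
theorem Cq.trL (H : Cq P δ k sh σ Adm n₀ e) (sep : Sep J) (clc : ClcL J c) (ksc : KscL J c)
    (kgen : KgenL J c) : TrL J c δ sh σ Adm n₀ (P.Tr e σ) := fun G lw g => by
  have C : Cz P δ k sh σ G n₀ e := ⟨H.mono lw.le, lw.op, fun q a => ⟨(g q a).1, fun α 𝒰 q' y cv d =>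
    (g q a).2 α 𝒰 q' y cv (d.mono fun _ k => ⟨lw.le _ k.1, k.2⟩)⟩, sep, clc, ksc, kgen⟩
  have l1 := C.hy.low
  obtain ⟨G', l2, t⟩ := Gen.all l1.op fun l => Gen.of
    ((C.mono l1.le l1.op).cnt (fun q a y m b => (a.2 m _ ⟨y, b, rfl⟩).2) l).low
  refine ⟨G', (lw.trans l1).trans l2, fun q a y x hy f => ?_⟩
  obtain rfl : R = x := singleton_injective (H.c1.symm.trans f.1.2.1)
  have a1 := l2.le q a
  have v := H.lev q y (lw.le q a1.1) hy f ((C.fc a1.1 hy).2 f.2.1).1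
  obtain ⟨ξ, u, cl⟩ : ∃ ξ, Ab (J.B c) (J.G c y.s) (oI W c R) y.x ξ ∧ P.Cl y.s y.x ξ P.g := by
    obtain ⟨ξ, u⟩ := H.ex_ab hy f
    have ai := H.ai hy v.1 u
    obtain ⟨m, cl⟩ := C.hd.cls q _ _ ξ a1.1 ai
    refine Or.elim ?_ (fun k => ⟨ξ, u, k⟩) fun k => ⟨_, Lns95.ab_neg u, k⟩
    by_cases i : ∃ l, Inn J R l
    · rw [cl_iff cl, cl_neg cl]
      exact ((t q a i.choose).2 (y, m) ⟨hy, f, ξ, u, cl⟩).1
    · exact (C.hd.flx q _ _ ξ a1.1 ai).2.1 fun l k => (i ⟨l, k⟩).elim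
  have sq : Sq P σ n₀ q y P.g := ⟨hy, f, ξ, u, cl⟩
  have d := a1.2 _ _ ⟨y, sq, rfl⟩
  obtain ⟨b, b1, b2, b3⟩ := C.tv_of a1.1 (ovc H.mem hy) d.1 d.2
  exact ⟨v.2 ⟨b, b1⟩, b, ξ, b1, b2, u, cl, b3, fun l => ((t q a l).2 (y, P.g) sq).2⟩

end Crest.Agent.X212.Trq48
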