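import Crest.Agent.X212.An.Asm
import Crest.Agent.X212.Fred93.Basic

/-!
# X212 / RFQ-TRQ (helper48), part 1: one equation in one unknown, generic parameters
-/

set_option autoImplicit false
set_option linter.unusedSectionVars false
noncomputable section
open scoped ContDiff Topology
open Set Function Filter

namespace Crest.Agent.X212.Trq48
open An Fin93

/-- parametric transversality for one equation -/
theorem pt {P : Type} [NormedAddCommGroup P] [NormedSpace ℝ P] [CompleteSpace P] {Ω : Set (ℝ × P)}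
    (hΩ : IsOpen Ω) {Ψ : ℝ × P → ℝ} (hΨ : ContDiffOn ℝ ∞ Ψ Ω) {z : ℝ × P} (hz : z ∈ Ω) {v : ℝ × P}
    (hv : fderiv ℝ Ψ z v ≠ 0) : ∃ N ∈ 𝓝 z, ∀ᶠ p in residual P, ∀ t, (t, p) ∈ N → Ψ (t, p) = Ψ z →
      fderiv ℝ Ψ (t, p) (1, 0) ≠ 0 := by
  obtain ⟨N, h1, h2⟩ := Sard93.param_loc (G := fun x => Ψ x - Ψ z) hΩ (hΨ.sub contDiffOn_const) hz
    (sub_self _) (Fred93.Fr.fin _).1 fun a => ⟨(a / fderiv ℝ Ψ z v) • v, by
      rw [fderiv_sub_const, map_smul, smul_eq_mul, div_mul_cancel₀ _ hv]⟩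
  refine ⟨N, h1, h2.mono fun p hp t a b e => ?_⟩
  obtain ⟨u, hu⟩ := hp t a (sub_eq_zero.2 b) 1
  rw [Sard93.dE_apply, fderiv_sub_const, show (u, (0 : P)) = u • ((1 : ℝ), (0 : P)) by simp,
    map_smul, e, smul_zero] at hu
  exact zero_ne_one hu

variable {W 𝒩 : Type} {G : (W →₀ ℝ) → Prop} {K : (W →₀ ℝ) → ℝ → ℝ} {q₀ : W →₀ ℝ}
  {J : Finset W} {α : Type} {l : Filter α} {q : α → W →₀ ℝ}

variable (G K) in
/-- smooth in every finite stage -/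
def Smo : Prop := ∀ S : Finset W, ∃ (U : Set (S → ℝ)) (Φ : (S → ℝ) × ℝ → ℝ), IsOpen U ∧
  ContDiffOn ℝ ∞ Φ (U ×ˢ Ioo (-1) 1) ∧ ∀ q, G q → q.support ⊆ S → (fun w : S => q w) ∈ U ∧
    ∀ t ∈ Ioo (-1 : ℝ) 1, Φ (fun w => q w, t) = K q t

theorem ext0_ap (p : J → ℝ) (w : W) [Decidable (w ∈ J)] :
    ext0 J p w = if h : w ∈ J then p ⟨w, h⟩ else 0 := by
  split_ifs with h
  exacts [ext0_mem p ⟨w, h⟩, ext0_not_mem p h]

theorem cv_ex (h : St.Cv l q q₀) (J₀ : Finset W) : ∃ J, J₀ ⊆ J ∧ ∃ p : α → J → ℝ,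
    Tendsto p l (𝓝 0) ∧ ∀ i, q i = q₀ + ext0 J (p i) := by
  classical
  obtain ⟨J, h1, h2⟩ := h
  refine ⟨J₀ ∪ J, Finset.subset_union_left, fun i w => q i w - q₀ w,
    tendsto_pi_nhds.2 fun w => tendsto_sub_nhds_zero_iff.2 (h2 w), fun i => Finsupp.ext fun w => ?_⟩
  rw [Finsupp.add_apply, ext0_ap]
  split_ifs with e
  exacts [by simp, by rw [h1 i w fun k => e (Finset.mem_union_right _ k), add_zero]]

theorem ext0_zero : q₀ + ext0 J 0 = q₀ := by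
  classical exact Finsupp.ext fun w => by simp [ext0_ap]

variable (G K q₀ J) in
/-- a chart of the stage `J` at `q₀` -/
structure Cht (Ω : Set (ℝ × (J → ℝ))) (Ψ : ℝ × (J → ℝ) → ℝ) : Prop where
  op : IsOpen Ω
  sm : ContDiffOn ℝ ∞ Ψ Ω
  eq : ∀ p, G (q₀ + ext0 J p) → ∀ t ∈ Ioo (-1 : ℝ) 1, (t, p) ∈ Ω ∧ Ψ (t, p) = K (q₀ + ext0 J p) t

theorem Smo.cht (h : Smo G K) (q₀ : W →₀ ℝ) (J : Finset W) : ∃ Ω Ψ, Cht G K q₀ J Ω Ψ := by
  classical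
  obtain ⟨U, Φ, h1, h2, h3⟩ := h (q₀.support ∪ J)
  let L : ℝ × (J → ℝ) → (↥(q₀.support ∪ J) → ℝ) × ℝ := fun z => (fun w => (q₀ + ext0 J z.2) w, z.1)
  have hL : ContDiff ℝ ∞ L := (contDiff_pi.2 fun w => by
    simp only [Finsupp.add_apply, ext0_ap]
    split_ifs <;> fun_prop).prodMk contDiff_fst
  exact ⟨L ⁻¹' (U ×ˢ Ioo (-1) 1), Φ ∘ L, (h1.prod isOpen_Ioo).preimage hL.continuous,
    h2.comp hL.contDiffOn fun _ k => k, fun p hp t ht =>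
      have k := h3 _ hp (Finsupp.support_add.trans (Finset.union_subset_union_right (ext0_support _ _)))
      ⟨⟨k.1, ht⟩, k.2 t ht⟩⟩

/-- the derivative along a word -/
def dw (K : (W →₀ ℝ) → ℝ → ℝ) (w : W) (q : W →₀ ℝ) (t : ℝ) : ℝ :=
  deriv (fun u => K (q + Finsupp.single w u) t) 0

theorem cv_single (q : W →₀ ℝ) (w : W) : St.Cv (𝓝 0) (fun u => q + Finsupp.single w u) q := by
  classical
  refine ⟨{w}, fun u w' k => by simp [Ne.symm (by simpa using k)], fun w' => ?_⟩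
  simp only [Finsupp.add_apply, Finsupp.single_apply]
  split_ifs
  exacts [by simpa using (tendsto_id (x := 𝓝 (0 : ℝ))).const_add (q w'), by simp]

namespace Cht
variable {Ω : Set (ℝ × (J → ℝ))} {Ψ : ℝ × (J → ℝ) → ℝ} (C : Cht G K q₀ J Ω Ψ) {p : J → ℝ} {t : ℝ}
  (hp : G (q₀ + ext0 J p)) (ht : t ∈ Ioo (-1 : ℝ) 1)
include C hp ht

theorem at' : ContDiffAt ℝ ∞ Ψ (t, p) := C.sm.contDiffAt (C.op.mem_nhds (C.eq p hp t ht).1)

theorem hd : HasDerivAt (K (q₀ + ext0 J p)) (fderiv ℝ Ψ (t, p) (1, 0)) t :=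
  (((C.at' hp ht).differentiableAt (by simp)).hasFDerivAt.comp_hasDerivAt t
    ((hasDerivAt_id t).prodMk (hasDerivAt_const t p))).congr_of_eventuallyEq
    ((isOpen_Ioo.eventually_mem ht).mono fun u hu => (C.eq p hp u hu).2.symm)

theorem dw_eq [DecidableEq W] (o : St.IsOp G) (w : J) :
    dw K w (q₀ + ext0 J p) t = fderiv ℝ Ψ (t, p) (0, Pi.single w 1) := by
  have e : ∀ u, q₀ + ext0 J p + Finsupp.single w.1 u = q₀ + ext0 J (p + u • Pi.single w 1) :=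
    fun u => Finsupp.ext fun w' => by
      simp only [Finsupp.add_apply, ext0_ap, Finsupp.single_apply, add_assoc]
      split_ifs with a b b
      · subst b; simp
      · simp [Subtype.ext_iff, Ne.symm b]
      · exact (a (b ▸ w.2)).elim
      · simp
  have d : HasDerivAt (fun u : ℝ => (t, p + u • (Pi.single w 1 : J → ℝ))) (0, Pi.single w 1) 0 := by
    simpa using (hasDerivAt_const (0 : ℝ) t).prodMk
      (((hasDerivAt_id (0 : ℝ)).smul_const (Pi.single w 1 : J → ℝ)).const_add p)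
  refine ((((C.at' hp ht).differentiableAt (by simp)).hasFDerivAt.comp_hasDerivAt_of_eq 0 d
    (by simp)).congr_of_eventuallyEq ((o _ hp _ _ _ (cv_single _ w.1)).mono fun u hu => ?_)).deriv
  rw [e] at hu
  simpa only [e, comp_apply] using (C.eq _ hu t ht).2.symm

theorem tend (v : ℝ × (J → ℝ)) {z : α → ℝ × (J → ℝ)} (hz : Tendsto z l (𝓝 (t, p))) :
    Tendsto (fun i => fderiv ℝ Ψ (z i) v) l (𝓝 (fderiv ℝ Ψ (t, p) v)) :=
  (((C.at' hp ht).continuousAt_fderiv (by simp)).clm_apply continuousAt_const).tendsto.comp hz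

end Cht

section lim
variable (h : Smo G K) (o : St.IsOp G) (h0 : G q₀) (cv : St.Cv l q q₀) {t t' : α → ℝ} {t₀ : ℝ}
  (m : t₀ ∈ Ioo (-1 : ℝ) 1) (ht : Tendsto t l (𝓝 t₀))
include h

theorem Smo.diff {t₀ : ℝ} (h0 : G q₀) (m : t₀ ∈ Ioo (-1 : ℝ) 1) : DifferentiableAt ℝ (K q₀) t₀ := by
  obtain ⟨Ω, Ψ, C⟩ := h.cht q₀ ∅
  have := (C.hd (p := 0) (ext0_zero.symm ▸ h0) m).differentiableAt
  rwa [ext0_zero] at this

include o h0 cv m ht

theorem Smo.td : Tendsto (fun i => deriv (K (q i)) (t i)) l (𝓝 (deriv (K q₀) t₀)) := by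
  obtain ⟨J, -, p, h1, h2⟩ := cv_ex cv ∅
  obtain ⟨Ω, Ψ, C⟩ := h.cht q₀ J
  have g : G (q₀ + ext0 J 0) := ext0_zero.symm ▸ h0
  have := (C.hd g m).deriv
  rw [ext0_zero] at this
  refine this ▸ (C.tend g m _ (ht.prodMk_nhds h1)).congr' ?_
  filter_upwards [o _ h0 _ _ _ cv, ht (isOpen_Ioo.mem_nhds m)] with i a b
  rw [h2 i] at a ⊢
  exact (C.hd a b).deriv.symm

theorem Smo.tw (w : W) : Tendsto (fun i => dw K w (q i) (t i)) l (𝓝 (dw K w q₀ t₀)) := by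
  classical
  obtain ⟨J, hw, p, h1, h2⟩ := cv_ex cv {w}
  obtain ⟨Ω, Ψ, C⟩ := h.cht q₀ J
  have g : G (q₀ + ext0 J 0) := ext0_zero.symm ▸ h0
  have := C.dw_eq g m o ⟨w, hw (by simp)⟩
  rw [ext0_zero] at this
  refine this ▸ (C.tend g m _ (ht.prodMk_nhds h1)).congr' ?_
  filter_upwards [o _ h0 _ _ _ cv, ht (isOpen_Ioo.mem_nhds m)] with i a b
  rw [h2 i] at a ⊢
  exact (C.dw_eq a b o ⟨w, hw (by simp)⟩).symm

/-- local injectivity -/
theorem Smo.inj (ht' : Tendsto t' l (𝓝 t₀)) (d : deriv (K q₀) t₀ ≠ 0) :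
    ∀ᶠ i in l, K (q i) (t i) = K (q i) (t' i) → t i = t' i := by
  have k : ∀ i, ∃ c ∈ uIcc (t i) (t' i), G (q i) → t i ∈ Ioo (-1 : ℝ) 1 → t' i ∈ Ioo (-1 : ℝ) 1 →
      K (q i) (t i) = K (q i) (t' i) → deriv (K (q i)) c ≠ 0 → t i = t' i := fun i => by
    by_contra! k
    obtain ⟨a, b, c, e, -, n⟩ := k _ left_mem_uIcc
    have s : ContinuousOn (K (q i)) (uIcc (t i) (t' i)) := fun u hu =>
      (h.diff a (ordConnected_Ioo.uIcc_subset b c hu)).continuousAt.continuousWithinAt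
    rcases lt_or_gt_of_ne n with n | n
    · obtain ⟨u, h1, h2⟩ := exists_deriv_eq_zero n (uIcc_of_le n.le ▸ s) e
      exact (k u (Icc_subset_uIcc (Ioo_subset_Icc_self h1))).2.2.2.2.1 h2
    · obtain ⟨u, h1, h2⟩ := exists_deriv_eq_zero n (uIcc_of_ge n.le ▸ s) e.symm
      exact (k u (Icc_subset_uIcc' (Ioo_subset_Icc_self h1))).2.2.2.2.1 h2
  choose c h1 h2 using k
  have hc : Tendsto c l (𝓝 t₀) := tendsto_of_tendsto_of_tendsto_of_le_of_le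
    (by simpa using ht.min ht') (by simpa using ht.max ht') (fun i => (h1 i).1) fun i => (h1 i).2
  filter_upwards [o _ h0 _ _ _ cv, ht (isOpen_Ioo.mem_nhds m), ht' (isOpen_Ioo.mem_nhds m),
    (h.td o h0 cv m hc).eventually_ne d] with i a b e f g using h2 i a b e g f

end lim

variable (G) (I : W → Prop) (K : 𝒩 → (W →₀ ℝ) → ℝ → ℝ) (Sl : (W →₀ ℝ) → 𝒩 → ℝ → Prop)

/-- the abstract situation: `I` = the words which do not change the value -/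
structure Hy : Prop where
  op : St.IsOp G
  sm : ∀ m, Smo G (K m)
  mem : ∀ q m t, G q → Sl q m t → t ∈ Ioo (-1 : ℝ) 1
  mov : ∀ q m t, G q → Sl q m t → ∃ w, I w ∧ dw (K m) w q t ≠ 0
  cp : ∀ q₀, G q₀ → ∀ α (𝒰 : Ultrafilter α) q (m : α → 𝒩) (t : α → ℝ), St.Cv (𝒰 : Filter α) q q₀ →
    (∀ᶠ i in (𝒰 : Filter α), G (q i) ∧ Sl (q i) (m i) (t i)) → ∃ m₀ t₀, Sl q₀ m₀ t₀ ∧
      (∀ᶠ i in (𝒰 : Filter α), m i = m₀) ∧ Tendsto t 𝒰 (𝓝 t₀) ∧ ((∀ i w, q i w ≠ q₀ w → I w) →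
        ∀ᶠ i in (𝒰 : Filter α), K m₀ (q i) (t i) = K m₀ q₀ t₀)

variable {G I K Sl}

open Classical in
/-- only the words of `I` -/
def msk (I : W → Prop) (J : Finset W) : (J → ℝ) →L[ℝ] J → ℝ :=
  .pi fun w => if I w then .proj w else 0

open Classical in
theorem msk_ap (p : J → ℝ) (w : J) : msk I J p w = if I w then p w else 0 := by
  simp only [msk, ContinuousLinearMap.pi_apply]
  split_ifs <;> rfl

/-- **generic transversality** -/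
theorem Hy.low (H : Hy G I K Sl) :
    Low.Ax ⟨G, fun q => G q ∧ ∀ m t, Sl q m t → t ≠ 0 ∧ deriv (K m q) t ≠ 0⟩ := by
  classical
  have ev : ∀ {α : Type} {l : Filter α} {q q₀ m t t₀}, G q₀ → St.Cv l q q₀ → Sl q₀ m t₀ →
      Tendsto t l (𝓝 t₀) → t₀ ≠ 0 ∧ deriv (K m q₀) t₀ ≠ 0 →
      ∀ᶠ i in l, t i ≠ 0 ∧ deriv (K m (q i)) (t i) ≠ 0 := fun a b c d e =>
    (d.eventually_ne e.1).and (((H.sm _).td H.op a b (H.mem _ _ _ a c) d).eventually_ne e.2)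
  refine ⟨fun _ => And.left, fun q₀ h α l q hq => (H.op q₀ h.1 α l q hq).and
    (mem_iff_ultrafilter.2 fun 𝒰 u => by_contra fun hn => ?_), fun O hO q₀ h1 h2 => ?_⟩
  · obtain ⟨y, hy⟩ := ((Ultrafilter.eventually_not.2 hn).mono (q := fun k => ∃ y : 𝒩 × ℝ,
      Sl (q k) y.1 y.2 ∧ ¬(y.2 ≠ 0 ∧ deriv (K y.1 (q k)) y.2 ≠ 0)) fun k hk => by
        simpa only [mem_ofPred_eq, not_forall, exists_prop, Prod.exists] using hk).choice
    have c : St.Cv (𝒰 : Filter α) q q₀ := hq.imp fun _ k => ⟨k.1, fun w => (k.2 w).mono_left u⟩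
    obtain ⟨m₀, t₀, a, b, d, -⟩ := H.cp q₀ h.1 α 𝒰 q _ _ c
      (((H.op q₀ h.1 _ _ _ c).and hy).mono fun _ k => ⟨k.1, k.2.1⟩)
    obtain ⟨k, h3, h4, h5⟩ := ((ev h.1 c a d (h.2 _ _ a)).and (hy.and b)).exists
    exact h4.2 (h5 ▸ h3)
  let D : Fin93.Dat (W →₀ ℝ) (Finset W) Unit (fun J => J → ℝ) fun _ => (𝒩 × ℝ) × ℝ :=
    ⟨fun J p => q₀ + ext0 J (msk I J p), fun _ => 0, fun q => G q ∧ O q,
      fun _ q x => Sl q x.1.1 x.2 ∧ K x.1.1 q x.2 = x.1.2,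
      fun _ q x => x.2 ≠ 0 ∧ deriv (K x.1.1 q) x.2 ≠ 0,
      fun _ q x J => ∃ w ∈ J, I w ∧ dw (K x.1.1) w q x.2 ≠ 0, fun _ x => map (x.1, ·) (𝓝 x.2)⟩
  have cv : ∀ {α : Type} {l : Filter α} {J : Finset W} {p : α → J → ℝ} {p₀}, Tendsto p l (𝓝 p₀) →
      St.Cv l (fun i => D.ι J (p i)) (D.ι J p₀) := fun k =>
    St.cv_ext0 q₀ (((msk I _).continuous.tendsto _).comp k)
  have pm : ∀ {J : Finset W} {p₀ : J → ℝ} {x₀ : (𝒩 × ℝ) × ℝ} {A : Set ((J → ℝ) × (𝒩 × ℝ) × ℝ)},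
      (∀ᶠ z : ℝ × (J → ℝ) in 𝓝 (x₀.2, p₀), (z.2, x₀.1, z.1) ∈ A) → A ∈ 𝓝 p₀ ×ˢ D.Near () x₀ :=
    fun {J p₀ x₀ A} k => by
      rw [show D.Near () x₀ = map (x₀.1, ·) (𝓝 x₀.2) from rfl, prod_map_right, ← nhds_prod_eq]
      exact (continuous_swap.tendsto (p₀, x₀.2)).eventually k
  have Y : D.Hyp := ⟨fun J J' k p => ⟨fun w => ext0 J p w, congrArg (q₀ + ·) (Finsupp.ext fun w => by
      simp only [ext0_ap, msk_ap]
      split_ifs with a b c d e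
      exacts [rfl, rfl, rfl, rfl, (a (k ‹_›)).elim, (a (k ‹_›)).elim, rfl])⟩,
    fun J p₀ a => (H.op.and hO) _ a _ _ _ (cv tendsto_id),
    fun _ _ _ _ _ k ⟨w, a, b⟩ => ⟨w, k a, b⟩,
    fun _ J p x a b => let ⟨w, c⟩ := H.mov _ _ _ a.1 b.1; .inr ⟨{w}, w, by simp, c⟩,
    fun _ J p x _ a b ⟨w, c, d, e⟩ => (((H.sm _).tw H.op a.1 (St.cv_const _ _) (H.mem _ _ _ a.1 b.1)
      tendsto_id w).eventually_ne e).mono fun _ k _ => ⟨w, c, d, k⟩,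
    fun _ J p x a b c => pm ((ev a.1 (cv (continuous_snd.tendsto (x.2, p))) b.1 (continuous_fst.tendsto _) c).mono
      fun _ k _ => k), fun _ J p x a b ⟨w, c, d, e⟩ => ?_, fun _ J p a _ 𝒰 b c => ?_⟩
  · obtain ⟨_, -, p, a, b⟩ := Y.exists_good (J₀ := ∅) (p₀ := 0) (by
      show G (q₀ + ext0 ∅ (msk I ∅ 0)) ∧ O (q₀ + ext0 ∅ (msk I ∅ 0))
      rw [map_zero, ext0_zero]; exact ⟨h1, h2⟩)
    exact ⟨_, a.2, a.1, fun m t k => b () ((m, K m _ t), t) ⟨k, rfl⟩⟩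
  · obtain ⟨Ω, Ψ, C⟩ := (H.sm x.1.1).cht q₀ J
    have m := H.mem _ _ _ a.1 b.1
    have k : ∀ r : ℝ, r * x.2 = x.2 → ∃ N ∈ 𝓝 (x.2, p), ∀ᶠ p' in residual (J → ℝ), ∀ t, (t, p') ∈ N →
        G (D.ι J p') → r * t ∈ Ioo (-1 : ℝ) 1 → K x.1.1 (D.ι J p') (r * t) = x.1.2 →
        r * deriv (K x.1.1 (D.ι J p')) (r * t) ≠ 0 := fun r hr => by
      let L : ℝ × (J → ℝ) →L[ℝ] ℝ × (J → ℝ) := (r • .id ℝ ℝ : ℝ →L[ℝ] ℝ).prodMap (msk I J)
      have f : ∀ {t p'} v, G (D.ι J p') → r * t ∈ Ioo (-1 : ℝ) 1 →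
          fderiv ℝ (Ψ ∘ L) (t, p') v = fderiv ℝ Ψ (r * t, msk I J p') (L v) := fun {t p'} v g u =>
        DFunLike.congr_fun (((C.at' g u).differentiableAt (by simp)).hasFDerivAt.comp (t, p')
          L.hasFDerivAt).fderiv v
      have m' := hr.symm ▸ m
      obtain ⟨N, n1, n2⟩ := pt (C.op.preimage L.continuous) (C.sm.comp_continuousLinearMap L)
        (z := (x.2, p)) (C.eq _ a.1 _ m').1 (v := (0, Pi.single ⟨w, c⟩ 1)) (by
          rw [f _ a.1 m', hr, show L (0, Pi.single ⟨w, c⟩ 1) = (0, Pi.single ⟨w, c⟩ 1) from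
            Prod.ext (by simp [L]) (funext fun w' => (msk_ap _ _).trans (by
              by_cases k : w' = ⟨w, c⟩ <;> simp [k, d])), ← C.dw_eq a.1 m H.op]
          exact e)
      refine ⟨N, n1, n2.mono fun p' hp t s g u v => ?_⟩
      have := hp t s ((C.eq _ g _ u).2.trans (v.trans (b.2.symm.trans ((congrArg _ hr.symm).trans
        (C.eq _ a.1 _ m').2.symm))))
      rwa [f _ g u, show L (1, 0) = r • (1, 0) by simp [L], map_smul, ← (C.hd g u).deriv] at this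
    obtain ⟨N, n1, n2⟩ := k 1 (one_mul _)
    have g := continuousAt_snd (p := (x.2, p)).eventually (H.op _ a.1 _ _ _ (cv tendsto_id))
    by_cases z : x.2 = 0
    · obtain ⟨N', n3, n4⟩ := k 0 (by simp [z])
      refine ⟨{y | y.2.1 = x.1 ∧ (y.2.2, y.1) ∈ N ∩ N' ∧ G (D.ι J y.1)},
        pm ((g.and (inter_mem n1 n3)).mono fun _ k => ⟨rfl, k.symm⟩),
        (n2.and n4).mono fun p' hp ⟨y, t⟩ ⟨(y1 : y = _), s, u⟩ v => ?_⟩
      subst y1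
      refine ⟨fun (e : t = 0) => ?_, ?_⟩
      · exact hp.2 t s.2 u (by simp) (by simpa [e] using v.2) (zero_mul _)
      · simpa using hp.1 t s.1 u (by simpa using H.mem _ _ _ u v.1) (by simpa using v.2)
    · refine ⟨{y | y.2.1 = x.1 ∧ (y.2.2 ≠ 0 ∧ (y.2.2, y.1) ∈ N) ∧ G (D.ι J y.1)},
        pm ((((continuousAt_fst.eventually_ne z).and n1).and g).mono
          fun _ k => ⟨rfl, k⟩), n2.mono fun p' hp ⟨y, t⟩ ⟨(y1 : y = _), s, u⟩ v => ⟨s.1, ?_⟩⟩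
      subst y1
      simpa using hp t s.2 u (by simpa using H.mem _ _ _ u v.1) (by simpa using v.2)
  · obtain ⟨m₀, t₀, d, e, f, g⟩ := H.cp _ a.1 _ 𝒰 _ (fun z => z.2.1.1) (fun z => z.2.2) (cv b)
      ((H.op _ a.1 _ _ _ (cv b)).and (c.mono fun _ => And.left))
    refine .inr ⟨((m₀, K m₀ _ t₀), t₀), ⟨d, rfl⟩, (tendsto_map.comp f).congr' ?_⟩
    filter_upwards [c, e, g fun i w k => by_contra fun n => k (by
      simp only [D, Finsupp.add_apply, ext0_ap, msk_ap, n, if_false])] with z k1 k2 k3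
    exact Prod.ext (Prod.ext k2.symm (k3.symm.trans (k2 ▸ k1.2))) rfl

end Crest.Agent.X212.Trq48
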