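import Crest.Agent.X212.Qab60.Lq
import Crest.Agent.X212.Pat85.Out
import Crest.Agent.X212.Pat85.IsB
import Crest.Agent.X212.Lns95.Sw
import Crest.Agent.X212.Loc8.Red
import Crest.Agent.X212.Trq48.Sa

/-!
# X212 / RFQ-TRQ (helper48), part 2: abelian face objects at the wall `R`
-/

set_option autoImplicit false
set_option linter.unusedSectionVars false
noncomputable section
open scoped Manifold ContDiff Topology Real
open Set Function Filter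

namespace Crest.Agent.X212.Trq48
open An M Nd18 Rf65 Qab60 Mp86.St Eqv71
open An.Job (Sol SolOn StrOn Str Obc)
open Rdc90 (Bs)
open Real (cos sin)

variable {Wi : Type} {X : Mf 4} {A κ lam : Type} [Fintype A] [Fintype κ] [Fintype lam]
  [DecidableEq lam] {M : Mark X A κ} {W : World M} {N : ML M lam} {Λ : Lns W N}
  {A' h : Type} [Fintype A'] [DecidableEq A'] [Fintype h] {r n : ℕ}
  {J : Job Wi Λ A' h r n} {c : M.Cl} {R : A} {P : HD J c R} {δ k : ℝ} {sh : Set A'} {σ : Cel A'}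
  {Adm : (Wi →₀ ℝ) → Prop} {n₀ : ℤ} {e : Bool → A'} {q q' q₀ : Wi →₀ ℝ} {y y' y'' y₀ : J.Obc c}
  {s : A' → ℝ} {m : P.𝒩} {l : h} {α : Type} {𝒰 : Ultrafilter α}

/-! ### parts and equivalences -/

theorem strOn_post {p : Prt A A' h} (hJ : J.OK) (hσ : σ ∈ J.𝒦) (hp : J.POK σ c p) (H : SolOn p σ q y)
    (H' : SolOn p σ q' y') (es : y.s = y'.s) (e : EqP p y y') {l : Filter α} {z : α → J.Obc c}
    (hz : ∀ᶠ i in l, Ad0 (z i).x (J.B c) (J.G c (z i).s)) (k : StrOn p l z y) : StrOn p l z y' := by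
  have cr := H'.crit
  have li := H'.lim
  have a' := ad0 H'.adm
  obtain ⟨s, x, _, ψ, β, ζ, _, j, m⟩ := y'
  obtain rfl := es
  obtain ⟨-, g, ξ, e, f⟩ := e
  have o := (Job.isClopen_un (W := W) hp.pc).2
  refine ⟨k.s, ?_, fun a b hb η hη => ?_⟩
  · obtain ⟨u, θ, h1, h2⟩ := k.lim
    refine ⟨_, _, Pat85.ulim_post o (Λ.B_ok _ _) h1 (fun a => ?_) (hz.mono fun _ j => j.ok)
      (ad0 H.adm) a' e, fun i hi => ?_⟩
    · rw [show (J.G c y.s).F.e = J.fr c y.s from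
        (W.L J.m c).F_e (Mark.mem_Ω _ (hJ.memO hσ H.ov))]
      exact vcv_of_vJ (X := fun p => (W.L J.m c).e p a) (fun x _ =>
        ((continuousAt_fst (p := (_, x))).eventually (Mark.ev_Ω _ (hJ.memO hσ H.ov))).mono
          fun p hp => (W.L J.m c).sm _ _ (hp _) a) ((hJ.sm.continuous.tendsto _).comp k.s)
    · obtain ⟨η, hη⟩ := f i hi
      exact hη ▸ Pat85.clim_post (h2 i hi) (e.m.J _ (hJ.cut_sub (hp.nb i hi) Hol14.x0_mem)) a'.ok.Jsq η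
  · by_cases ha : a ∈ cylW c
    · have := (show NeBot (bif b then atBot else atTop : Filter ℝ) by
        cases b; exacts [atTop_neBot, atBot_neBot])
      have t : Act J.m c a (some b) (J.Θ y.s) := ⟨ha.2, hJ.memBr hσ H.ov, hJ.memO hσ H.ov, ha.1⟩
      have a1 : (J.xs a).D.Adm _ := ⟨(H.crit a ha b hb).sol.toAdm, (H.crit a ha b hb).tmp⟩
      have a2 : (J.xs a).D.Adm _ := ⟨(cr a ha b hb).sol.toAdm, (cr a ha b hb).tmp⟩
      obtain ⟨_, s⟩ := Pat85.stb_of_lim a1 a2 (ad0 H.adm) (Pat85.isEnd_b b) (H.lim a b t hb)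
        (lim_pre (Λ.B_ok _ _) o (hJ.end_sub t hp.pc hb) a2 (ad0 H.adm) a' e (li a b t hb))
      obtain ⟨η', h0, h1⟩ := Pat85.near_post (I := (W.Z c).I) (B := J.B c) (r := r) a1 a2 s hη
      obtain ⟨T, hT⟩ := k.tail a b hb η' h0
      exact ⟨T, (hz.and hT).mono fun i j o t ht => h1 _ _ _ _ j.1 (j.2 o t ht)⟩
    · exact ⟨0, .of_forall fun _ k => (ha ⟨k.2.2.2, k.1⟩).elim⟩

variable (R) in
/-- isomorphism which ignores the fields of the inner cuts -/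
def Ceq (y y' : J.Obc c) : Prop := y.s = y'.s ∧ IsoC (fun i : {l // ¬Inn J R l} => J.cut c i) (J.B c)
  (J.G c y.s).F ⟨y.x, fun i => y.ψ i⟩ ⟨y'.x, fun i => y'.ψ i⟩

theorem Ceq.refl (a : y.Ok) : Ceq R y y := ⟨rfl, Cnt93.isoC_refl (Λ.B_ok _ _) (Λ.G_ok _ a.2) a.1⟩

theorem Ceq.symm (e : Ceq R y y') (a : y.Ok) (a' : y'.Ok) : Ceq R y' y :=
  ⟨e.1.symm, e.1 ▸ Cnt93.isoC_symm (Λ.B_ok _ _) (Λ.G_ok _ a.2) a.1 (e.1 ▸ a'.1) e.2⟩

theorem Ceq.trans (e : Ceq R y y') (e' : Ceq R y' y'') (a : y.Ok) (a' : y'.Ok) (a'' : y''.Ok) :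
    Ceq R y y'' :=
  ⟨e.1.trans e'.1, Cnt93.isoC_trans (Λ.B_ok _ _) (Λ.G_ok _ a.2) a.1 (e.1 ▸ a'.1)
    ((e.1.trans e'.1) ▸ a''.1) e.2 (e.1 ▸ e'.2)⟩

section row
variable (hJ : J.OK) (o : Ovc J c σ s) (hl : l ∈ J.unc c) {x x' : Cg' W c lam r} {u ζ}
  (a : Ad0 x (J.B c) (J.G c s)) (a' : Ad0 x' (J.B c) (J.G c s))
  (g : Mod61.EqOn (J.B c) (J.G c s).F univ x x' u ζ)
include hJ o hl a a' g

theorem row_iff {ψ ψ'} (f : (J.cut c l).Eqv (J.cut c l) (J.B c) (J.B c) u ψ ψ') :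
    Row J c q s x' l ψ' ↔ Row J c q s x l ψ :=
  have v : J.Ov σ c s := ⟨J.cl_dom o.2.1, o.2.2⟩
  PcRel0.sol (hJ.σc_nat o.1 v isClopen_univ hl (subset_univ _) q)
    (lg_refl (Λ.B_ok _ _) (hJ.G_ok o.1 v) isOpen_univ) (hJ.ct σ o.1 _ v.1 c v.2 l hl)
    (hJ.ct σ o.1 _ v.1 c v.2 l hl) (Cnt93.rel_refl (Λ.B_ok _ _) (subset_univ _)) (cr0_univ a a' g) f

/-- the fields of a cut move along an isomorphism, compatibly with the phases -/
theorem ex_mv : ∃ T : (J.cut c l).H (J.B c) x.m → (J.cut c l).H (J.B c) x'.m, Injective T ∧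
    (∀ ψ (η : Circle), (J.cut c l).Eqv (J.cut c l) (J.B c) (J.B c) u ψ
      (Hol14.cH x'.m (J.B c) (J.cut c l) (csE x'.m.J η) (T ψ))) ∧
    (∀ ψ, (J.cut c l).Eqv (J.cut c l) (J.B c) (J.B c) u ψ (T ψ)) ∧
    ∀ ψ (η : Circle), Hol14.cH x'.m (J.B c) (J.cut c l) (csE x'.m.J η) (T ψ) =
      T (Hol14.cH x.m (J.B c) (J.cut c l) (csE x.m.J η) ψ) := by
  have v : J.Ov σ c s := ⟨J.cl_dom o.2.1, o.2.2⟩
  have L := (lg_refl (Λ.B_ok _ _) (hJ.G_ok o.1 v) isOpen_univ).of_ceq a a' g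
  have r := Cnt93.rel_refl (k := J.cut c l) (Λ.B_ok J.m c) (subset_univ _)
  have i := Cnt93.hi_Rh L r 1
  refine ⟨_, Cnt93.inj_Rh L r 1, fun ψ η => (Cnt93.eqv_iff L r).2 ⟨η, Subtype.ext ?_⟩,
    fun ψ => (Cnt93.eqv_iff L r).2 ⟨1, rfl⟩, fun ψ η => i.cpr (T := Cnt93.LU _) (T' := Cnt93.LU _)
      (fun f => by rw [Cnt93.LU_LU, Cnt93.LU_LU, i.hJ.csE]) ψ⟩
  have k : Cnt93.LU (csE x'.m.J η) (Cnt93.Rh _ (J.cut c l) _ (J.B c) u 1 ψ : L2c _) =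
      Cnt93.Rh _ (J.cut c l) _ (J.B c) u η ψ := by
    rw [Cnt93.coe_Rh L r, Cnt93.coe_Rh L r, Cnt93.LU_LU, show csE x'.m.J (1 : Circle) = 1 from csL_one _]
    rfl
  exact (congrArg (Submodule.starProjection _) k).trans
    (Submodule.starProjection_eq_self_iff.2 (Subtype.property _))

theorem line_of (H : Line J c q s x' l) : Line J c q s x l := fun ψ ψ' b b' =>
  let ⟨_, t1, _, t3, t4⟩ := ex_mv hJ o hl a a' g
  (H _ _ ((row_iff hJ o hl a a' g (t3 ψ)).2 b) ((row_iff hJ o hl a a' g (t3 ψ')).2 b')).imp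
    fun η k => t1 (k.trans (t4 ψ η))

theorem eqv_of_line (H : Line J c q s x' l) {ψ ψ'} (b : Row J c q s x l ψ) (b' : Row J c q s x' l ψ') :
    (J.cut c l).Eqv (J.cut c l) (J.B c) (J.B c) u ψ ψ' :=
  let ⟨_, _, t2, t3, _⟩ := ex_mv hJ o hl a a' g
  let ⟨η, k⟩ := H _ _ ((row_iff hJ o hl a a' g (t3 ψ)).2 b) b'
  k ▸ t2 ψ η

end row

theorem ovc (hσ : σ ∈ J.𝒦) (hy : Sol σ q y) : Ovc J c σ y.s := ⟨hσ, hy.cell, hy.inf⟩

theorem Ceq.line (e : Ceq R y y') (hJ : J.OK) (o : Ovc J c σ y.s) (a : y.Ok) (a' : y'.Ok)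
    (hl : l ∈ J.unc c) (H : Line J c q y'.s y'.x l) : Line J c q y.s y.x l := by
  obtain ⟨s, x, _, ψ, β, ζ, _, j, m⟩ := y'
  obtain ⟨rfl, u, ξ, e, -⟩ := e
  exact line_of hJ o hl a.1 a'.1 e H

/-- with lines at the inner cuts -/
theorem Ceq.iso (e : Ceq R y y') (hJ : J.OK) (hσ : σ ∈ J.𝒦) (hy : Sol σ q y) (hy' : Sol σ q y')
    (t : y.Tight) (t' : y'.Tight) (H : ∀ l, Inn J R l → Line J c q y'.s y'.x l) : Job.Iso y y' := by
  have b := fun l hl => hy.cut l ((hy.H_eq t.1).ge hl)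
  have b' := fun l hl => hy'.cut l ((hy'.H_eq t'.1).ge hl)
  have a' := ad0 hy'.sol.toAdm
  obtain ⟨s, x, _, ψ, β, ζ, _, j, m⟩ := y'
  obtain ⟨rfl, u, ξ, e, f⟩ := e
  exact ⟨rfl, u, ξ, e, fun i => (em _).elim (fun k => eqv_of_line hJ (ovc hσ hy) i.2
    (ad0 hy.sol.toAdm) a' e (H i k) (b i i.2) (b' i i.2)) fun k => f ⟨i, k⟩⟩

/-! ### the situation -/

variable (P δ sh σ Adm n₀ e k) in
/-- the standing hypotheses -/
structure Cq : Prop extends H1 J c δ sh σ Adm n₀ where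
  hd : P.OK Adm e k
  c1 : c.1 = {R}
  np : ¬M.pin R
  nil : ∀ a, Nl J a
  ne : ∃ s, Ovc J c σ s
  one : ∀ b b', σ (e b) = none → σ (e b') = none → e b = e b'
  fx : ∀ b, σ (e b) = none ∨ σ (e b) = some false
  lt : ∀ s b, Ovc J c σ s → s (e b) < 1
  co : ∀ a, σ a = none → a ∈ (pO J c sh σ R).V ∨ (∃ b, a = e b) ∨ J.hd a = some R
  out : ∀ q₀ y₀, Adm q₀ → Sol σ q₀ y₀ → FA J c σ n₀ y₀ R → RegO J c δ sh σ q₀ y₀ R →
    Ok δ y₀ (pO J c sh σ R) → ∀ (α : Type) (𝒰 : Ultrafilter α) (q : α → Wi →₀ ℝ)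
      (y y' : α → J.Obc c), St.Cv (𝒰 : Filter α) q q₀ →
      (∀ᶠ i in (𝒰 : Filter α), SolOn (pO J c sh σ R) σ (q i) (y i) ∧
        SolOn (pO J c sh σ R) σ (q i) (y' i)) →
      StrOn (pO J c sh σ R) 𝒰 y y₀ → StrOn (pO J c sh σ R) 𝒰 y' y₀ →
      ∀ᶠ i in (𝒰 : Filter α), EqP (pO J c sh σ R) (y i) (y' i) ∧
        (J.xs R).D.Eqv ((y i).β R true) ((y' i).β R true)
  lev : ∀ q y, Adm q → Sol σ q y → FA J c σ n₀ y R → Ok δ y (pO J c sh σ R) →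
    y.kap (oI W c R) = k ∧ ((∃ b, σ (e b) = none) → n₀ + Job.dim σ = 1)

variable (P sh σ k) in
/-- solutions outside, abelian of class `m` inside, with matching holonomy -/
structure WO (q : Wi →₀ ℝ) (y : J.Obc c) (m : P.𝒩) : Prop where
  so : SolOn (pO J c sh σ R) σ q y
  ai : ∃ ξ, AI J c R q y.s y.x k ξ ∧ P.Cl y.s y.x ξ m
  mt : cos (2 * π * P.hl (y.β R true)) = cos (2 * π * P.H m q y.s)

open Classical in
variable (J c σ e) in
/-- the path in the free pinch coordinate -/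
def pth (t : ℝ) : A' → ℝ := fun a =>
  if (∃ b, a = e b) ∧ σ a = none then t ^ 2 else epsilon (Ovc J c σ) a

variable (e) in
/-- the parameter on the path -/
def tt (s : A' → ℝ) : ℝ := √(max (s (e false)) (s (e true)))

variable (P σ e) in
/-- the holonomy along the path -/
def Kq (m : P.𝒩) (q : Wi →₀ ℝ) (t : ℝ) : ℝ := cos (2 * π * P.H m q (pth J c σ e t))

variable (P σ e) in
/-- transversality in the free pinch coordinate -/
def Tv (m : P.𝒩) (q : Wi →₀ ℝ) (s : A' → ℝ) : Prop := ∃ b, σ (e b) = none ∧ 0 < s (e b) ∧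
  deriv (fun t => P.H m q (update s (e b) t)) (s (e b)) ≠ 0

theorem tt_cont : Continuous (tt e) := by unfold tt; fun_prop

theorem en_out : (pO J c sh σ R).En R true := ⟨_, rfl, by simp [hp]⟩

namespace Cq
variable (H : Cq P δ k sh σ Adm n₀ e)
include H

theorem cw : R ∈ cylW c := ⟨H.c1.ge rfl, H.np⟩

theorem pok : J.POK σ c (pO J c sh σ R) :=
  H.loc.pok σ H.mem c _ _ _ (fun _ (k : _ = _) => k ▸ hp_mem H.c1 true) subset_rfl

theorem un : W.un c (pO J c sh σ R).P = (oI W c R)ᶜ := Pat85.un_out H.c1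

theorem bs {β} (k : (J.xs R).N.Crit (J.xs R).D β) : Bs (J.xs R).D β :=
  let ⟨_, _, h, _⟩ := (wl H.toH1).num H.cw; h _ k

theorem inn_sub (k : Inn J R l) : (J.cut c l).supp ⊆ oI W c R :=
  (H.ok.cut_sub (P := {hp R false}) (by rwa [biUnion_singleton])).trans (un_one _ _ _).le

theorem inn_unc (k : Inn J R l) : l ∈ J.unc c :=
  Job.unc_of (P := {hp R false}) (fun _ (k : _ = _) => k ▸ hp_mem H.c1 false) (by rwa [biUnion_singleton])

theorem not_inn (k : l ∈ (pO J c sh σ R).H) : ¬Inn J R l := fun k' =>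
  H.un.le (H.ok.cut_sub (H.pok.nb l k) Hol14.x0_mem) (H.inn_sub k' Hol14.x0_mem)

theorem cuts (k : l ∈ J.unc c) (k' : ¬Inn J R l) : l ∈ (pO J c sh σ R).H := by
  have u : ∀ b, M.sys.U (hp R b) = (M.sys.w R).sd b := fun b => Subset.antisymm
    (fun _ k => k R b (by simp [hp])) fun _ k _ _ e => (hp_some.1 e).1 ▸ (hp_some.1 e).2 ▸ k
  refine ⟨trivial, ?_⟩
  rw [biUnion_singleton, u]
  refine ((H.loc.nb l).subset_or_subset ((M.sys.w R).op_sd true) ((M.sys.w R).op_sd false)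
    (M.sys.w R).dj fun x hx => by_contra fun n => disjoint_left.1 k hx
      (mem_biUnion (H.c1.ge rfl) fun b t => n ?_)).resolve_right fun t => k' (t.trans (u _).ge)
  cases b
  exacts [.inr t, .inl t]

theorem yH (a : Adm q) (hy : Sol σ q y) (f : FA J c σ n₀ y R) : y.H = univ ∧ J.unc c = univ :=
  ⟨(Pat85.fc_H H.toH1 a hy f.1).1, (H.num _ _ R a hy f.1).1⟩

theorem zero (f : FA J c σ n₀ y R) : ∀ z ∈ oI W c R, y.x.Φ z = 0 := fun _ => Obc.zero f.2.1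

theorem so (a : Adm q) (hy : Sol σ q y) (f : FA J c σ n₀ y R) : SolOn (pO J c sh σ R) σ q y :=
  ⟨hy.cell, hy.inf, hy.sol.toAdm, fun z hz => H.zero f z (not_not.1 fun k => hz (H.un.ge k)),
    fun z _ => hy.sol.D z, fun z _ => hy.sol.C z, hy.sol.S,
    fun i _ => hy.cut i ((H.yH a hy f).1.ge trivial), fun a b ha _ => hy.lim a b ha,
    fun a ha b _ => hy.crit a ha b, hy.int.integrableOn⟩

theorem son (a : Adm q) (hy : Sol σ q y) (f : FA J c σ n₀ y R) {l : Filter α} {z : α → J.Obc c}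
    (t : Str l z y) : StrOn (pO J c sh σ R) l z y := by
  have := t.on (sh := sh) (σ := σ) {hp R true} {hp R true}
  rwa [(H.yH a hy f).1] at this

theorem ex_ab (hy : Sol σ q y) (f : FA J c σ n₀ y R) :
    ∃ ξ, Ab (J.B c) (J.G c y.s) (oI W c R) y.x ξ :=
  have := M.con
  let ⟨_, hx⟩ := (hp_mem H.c1 false).toIsReg.nonempty
  have hx' : _ ∈ oI W c R := .inl ⟨_, hx, rfl⟩
  (Loc8.exists_rd (Λ.B_ok _ _) (H.ok.G_ok H.mem hy.ov) hy.sol.toAdm H.hd.cl.2 hx' (H.hd.sc.2 _ hx')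
    f.2.2).imp fun _ k => ⟨hy.sol.toAdm, k, H.zero f⟩

theorem ai (hy : Sol σ q y) (lv : y.kap (oI W c R) = k) {ξ}
    (b : Ab (J.B c) (J.G c y.s) (oI W c R) y.x ξ) : AI J c R q y.s y.x k ξ :=
  ⟨⟨σ, ovc H.mem hy⟩, b, fun z _ => hy.sol.C z, hy.int.integrableOn, lv⟩

/-- **face objects** -/
theorem wo (a : Adm q) (hy : Sol σ q y) (f : FA J c σ n₀ y R) (lv : y.kap (oI W c R) = k) {ξ}
    (b : Ab (J.B c) (J.G c y.s) (oI W c R) y.x ξ) (cl : P.Cl y.s y.x ξ m) : WO P k sh σ q y m :=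
  ⟨H.so a hy f, ⟨ξ, H.ai hy lv b, cl⟩, bk hy R ⟨H.cw, f.1.2.2.2.1.2 R H.cw⟩ ▸
    (H.hd.lim q _ _ ξ m a (H.ai hy lv b) cl (hy.act H.ok H.mem H.cw false) _ _
      (H.bs (hy.crit R H.cw false))).1 (hy.lim R false _)⟩

theorem ex_wo (a : Adm q) (hy : Sol σ q y) (f : FA J c σ n₀ y R) (lv : y.kap (oI W c R) = k) :
    ∃ m, WO P k sh σ q y m :=
  let ⟨ξ, b⟩ := H.ex_ab hy f
  (H.hd.cls q _ _ ξ a (H.ai hy lv b)).imp fun _ => H.wo a hy f lv b

/-- the limit is not central -/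
theorem sin_ne (w : WO P k sh σ q y m) (d : dz (J.xs R).D (y.β R true) = 1) :
    sin (2 * π * P.H m q y.s) ≠ 0 := fun z => by
  have := J.conn_xs R
  have b := H.bs (w.so.crit R H.cw true en_out)
  obtain ⟨p⟩ : Nonempty (J.xs R).Y.M := inferInstance
  have t := H.hd.clr.mem (y.β R true)
  refine absurd (d.symm.trans (Clr59.dz_cen b.ok b.adm p (H.hd.clr.cen b ?_ p))) (by decide)
  rcases Real.sin_eq_zero_iff_cos_eq.1 z with z | z
  · exact .inl (Clr59.cos_inj t ⟨le_rfl, by norm_num⟩ (by rw [w.mt, z]; simp))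
  · exact .inr (Clr59.cos_inj t ⟨by norm_num, le_rfl⟩ (by
      rw [w.mt, z, show 2 * π * (1 / 2) = π by ring, Real.cos_pi]))

/-! ### the path -/

theorem s0 (o : Ovc J c σ s) {b} (k : σ (e b) ≠ none) : s (e b) = 0 :=
  o.2.1.1 _ _ ((H.fx b).resolve_left k)

theorem pth_eq {b} (k : σ (e b) = none) (t : ℝ) :
    pth J c σ e t = update (Classical.epsilon (Ovc J c σ)) (e b) (t ^ 2) := funext fun a => by
  by_cases ea : a = e b
  · rw [ea, update_self, pth, if_pos ⟨⟨b, rfl⟩, k⟩]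
  · rw [update_of_ne ea, pth, if_neg fun ⟨⟨b', u⟩, v⟩ => ea (u ▸ H.one _ _ (u ▸ v) k)]

theorem pth_ov {t : ℝ} (ht : t ∈ Ioo (-1 : ℝ) 1) : Ovc J c σ (pth J c σ e t) := by
  have o := Classical.epsilon_spec H.ne
  by_cases k : ∃ b, σ (e b) = none
  · obtain ⟨b, k⟩ := k
    exact H.pth_eq k t ▸ H.hd.line _ _ b o k _ ⟨sq_nonneg t, (sq_lt_one_iff_abs_lt_one t).2 (abs_lt.2 ht)⟩
  · exact (funext fun a => if_neg fun ⟨⟨b, u⟩, v⟩ => k ⟨b, u ▸ v⟩ : pth J c σ e t = _) ▸ o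

theorem tt_sq (o : Ovc J c σ s) {b} (k : σ (e b) = none) : tt e s ^ 2 = s (e b) := by
  have p := fun b => (o.2.1.2 (e b)).1
  have u : ∀ b', s (e b') ≤ s (e b) := fun b' => (em _).elim (fun t => (H.one _ _ t k ▸ le_rfl))
    fun t => (H.s0 o t).trans_le (p b)
  rw [tt, Real.sq_sqrt (le_max_of_le_left (p _))]
  exact le_antisymm (max_le (u _) (u _)) (by cases b; exacts [le_max_left _ _, le_max_right _ _])

theorem tt_mem (o : Ovc J c σ s) : tt e s ∈ Ioo (-1 : ℝ) 1 :=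
  ⟨neg_one_lt_zero.trans_le (Real.sqrt_nonneg _),
    (Real.sqrt_lt' one_pos).2 (by simpa using ⟨H.lt s _ o, H.lt s _ o⟩)⟩

theorem H_pth (a : Adm q) (o : Ovc J c σ s) : P.H m q (pth J c σ e (tt e s)) = P.H m q s :=
  H.hd.loc m q σ _ _ a (H.pth_ov (H.tt_mem o)) o fun b => by
    by_cases k : σ (e b) = none
    · rw [pth, if_pos ⟨⟨b, rfl⟩, k⟩, H.tt_sq o k]
    · rw [H.s0 o k, H.s0 (H.pth_ov (H.tt_mem o)) k]

theorem smo' (m : P.𝒩) : Smo Adm fun q t => P.H m q (pth J c σ e t) := fun S =>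
  H.hd.sm m S _ (contDiff_pi.2 fun a => by unfold pth; split_ifs <;> fun_prop)
    fun _ ht => ⟨σ, H.pth_ov ht⟩

theorem smo (m : P.𝒩) : Smo Adm (Kq P σ e m) := fun S =>
  let ⟨U, Φ, h1, h2, h3⟩ := H.smo' m S
  ⟨U, fun z => cos (2 * π * Φ z), h1, (contDiffOn_const.mul h2).cos, fun q a b =>
    ⟨(h3 q a b).1, fun t ht => congrArg (fun u => cos (2 * π * u)) ((h3 q a b).2 t ht)⟩⟩

theorem Kq_tt (a : Adm q) (w : WO P k sh σ q y m) :
    Kq P σ e m q (tt e y.s) = cos (2 * π * P.hl (y.β R true)) := by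
  rw [Kq, H.H_pth a ⟨H.mem, w.so.cell, w.so.inf⟩, w.mt]

theorem deriv_Kq (a : Adm q) (o : Ovc J c σ s) {b} (f : σ (e b) = none) (p : 0 < s (e b)) :
    deriv (Kq P σ e m q) (tt e s) = -sin (2 * π * P.H m q s) * (2 * π *
      (deriv (fun t => P.H m q (update s (e b) t)) (s (e b)) * (2 * tt e s))) := by
  have ts : ∀ {s}, Ovc J c σ s → tt e s = √(s (e b)) := fun o => by
    rw [← H.tt_sq o f, Real.sqrt_sq (by exact Real.sqrt_nonneg _)]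
  have t0 := ts o
  have t1 : 0 < tt e s := t0 ▸ Real.sqrt_pos.2 p
  have d := ((H.smo' m).diff a (H.tt_mem o)).hasDerivAt
  have g : (fun t => P.H m q (update s (e b) t)) =ᶠ[𝓝 (s (e b))]
      (fun t => P.H m q (pth J c σ e t)) ∘ Real.sqrt :=
    (isOpen_Ioo.eventually_mem ⟨p, H.lt s b o⟩).mono fun u hu => by
      have o' := H.hd.line _ _ b o f u ⟨hu.1.le, hu.2⟩
      exact (H.H_pth a o').symm.trans (by rw [ts o', update_self]; rfl)
  rw [((d.comp_of_eq _ (Real.hasDerivAt_sqrt p.ne') t0).congr_of_eventuallyEq g).deriv, ← t0,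
    ← H.H_pth a o, mul_assoc (deriv _ _), one_div_mul_cancel (by positivity), mul_one]
  exact (d.const_mul (2 * π)).cos.deriv

theorem tv_of (a : Adm q) (o : Ovc J c σ s) (t : tt e s ≠ 0) (d : deriv (Kq P σ e m q) (tt e s) ≠ 0) :
    Tv P σ e m q s := by
  by_cases f : ∃ b, σ (e b) = none
  · obtain ⟨b, f⟩ := f
    have p : 0 < s (e b) := H.tt_sq o f ▸ by positivity
    exact ⟨b, f, p, fun z => d (by rw [H.deriv_Kq a o f p, z]; simp)⟩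
  · exact (t (by simp [tt, H.s0 o (not_exists.1 f _)])).elim

theorem of_tv (a : Adm q) (o : Ovc J c σ s) (n : sin (2 * π * P.H m q s) ≠ 0) (t : Tv P σ e m q s) :
    deriv (Kq P σ e m q) (tt e s) ≠ 0 := by
  obtain ⟨b, f, p, d⟩ := t
  have : tt e s ≠ 0 := fun z => p.ne' (by rw [← H.tt_sq o f, z]; simp)
  rw [H.deriv_Kq a o f p]
  simp [n, d, this]

/-! ### uniqueness -/

theorem ceq (a : Adm q) (w : WO P k sh σ q y m) (w' : WO P k sh σ q y' m) (u : J.unc c = univ)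
    (t : tt e y.s = tt e y'.s) (g : EqP (pO J c sh σ R) y y') : Ceq R y y' := by
  have o : Ovc J c σ y.s := ⟨H.mem, w.so.cell, w.so.inf⟩
  have o' : Ovc J c σ y'.s := ⟨H.mem, w'.so.cell, w'.so.inf⟩
  have es : y.s = y'.s := funext fun i => by
    rcases hi : σ i with _ | b
    · rcases H.co i hi with v | ⟨b, rfl⟩ | v
      exacts [g.1 i v, by rw [← H.tt_sq o hi, ← H.tt_sq o' hi, t],
        (H.ok.eq_one H.mem w.so.ov v H.cw.1).trans (H.ok.eq_one H.mem w'.so.ov v H.cw.1).symm]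
    · exact (o.2.1.1 i b hi).trans (o'.2.1.1 i b hi).symm
  obtain ⟨ξ, b, cl⟩ := w.ai
  obtain ⟨ξ', b', cl'⟩ := w'.ai
  obtain ⟨s, x, _, ψ, β, ζ, _, j, m⟩ := y'
  obtain rfl := es
  obtain ⟨-, g, η, g1, g2⟩ := g
  obtain ⟨v, v1, -⟩ := H.hd.uq q _ _ ξ _ ξ' _ a b b' cl cl'
  classical
  refine ⟨rfl, _, η, Lns95.ceq_glue (Λ.B_ok _ _) H.hd.cl (ad0 b.ab.adm) (ad0 b'.ab.adm) b.ab.z b'.ab.z v1
    (H.un ▸ g1), fun i => ?_⟩
  have hi := H.cuts (u.ge trivial) i.2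
  exact (g2 i hi).imp fun _ t => t.trans (by
    rw [piecewise_eq_of_notMem _ _ _ (H.un.le (H.ok.cut_sub (H.pok.nb i hi) Hol14.x0_mem))])

/-- **uniqueness near a transverse face object** -/
theorem near (op : St.IsOp Adm) (a₀ : Adm q₀) (h₀ : Sol σ q₀ y₀) (f₀ : FA J c σ n₀ y₀ R)
    (ro : RegO J c δ sh σ q₀ y₀ R) (ok : Ok δ y₀ (pO J c sh σ R))
    (d : deriv (Kq P σ e m q₀) (tt e y₀.s) ≠ 0) {q : α → Wi →₀ ℝ} {y y' : α → J.Obc c}
    (cv : St.Cv (𝒰 : Filter α) q q₀)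
    (w : ∀ᶠ i in (𝒰 : Filter α), WO P k sh σ (q i) (y i) m ∧ WO P k sh σ (q i) (y' i) m)
    (t : StrOn (pO J c sh σ R) 𝒰 y y₀) (t' : StrOn (pO J c sh σ R) 𝒰 y' y₀) :
    ∀ᶠ i in (𝒰 : Filter α), Ceq R (y i) (y' i) := by
  filter_upwards [w, op _ a₀ _ _ _ cv,
    H.out q₀ y₀ a₀ h₀ f₀ ro ok α 𝒰 q y y' cv (w.mono fun _ k => ⟨k.1.so, k.2.so⟩) t t',
    (H.smo m).inj op a₀ cv (H.tt_mem (ovc H.mem h₀)) ((tt_cont.tendsto _).comp t.s)
      ((tt_cont.tendsto _).comp t'.s) d] with i b a g j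
  refine H.ceq a b.1 b.2 (H.yH a₀ h₀ f₀).2 (j ?_) g.1
  rw [comp_apply, comp_apply, H.Kq_tt a b.1, H.Kq_tt a b.2, (H.hd.clr.eqv
    (H.bs (b.1.so.crit R H.cw true en_out)) (H.bs (b.2.so.crit R H.cw true en_out))).1 g.2]

theorem eqP (g : Ceq R y y') : EqP (pO J c sh σ R) y y' :=
  let ⟨u, ζ, g1, g2⟩ := g.2
  ⟨fun _ _ => congrFun g.1 _, u, ζ, Wrd81.ceq_mono g1 (subset_univ _), fun i hi => g2 ⟨i, H.not_inn hi⟩⟩

end Cq
end Crest.Agent.X212.Trq48
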