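import Crest.Agent.X212.Cqn41.Nr0
import Crest.Agent.X212.Nt66.Nat
import Crest.Agent.X212.Ax1.Lf

/-! # Row 212 (helper48): locality of the linearisation over a clopen set without spinor -/

set_option autoImplicit false
set_option linter.unusedSectionVars false
noncomputable section
open scoped Manifold ContDiff Topology
open Set Function Filter

namespace Crest.Agent.X212.Trq48.Tl
open An M Nd18 Mod61 Nk89 Cht98 Rf65 Pte3 Nt66 Nr41 Sob92 Ax1.Lf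

variable {Wi : Type} {X : Mf 4} {A κ lam : Type} [Fintype A] [Fintype κ] [Fintype lam]
  [DecidableEq lam] {M : Mark X A κ} {W : World M} {N : ML M lam} {Λ : Lns W N}
  {A' h : Type} [Fintype A'] [DecidableEq A'] [Fintype h] {r n : ℕ}
  {J : Job Wi Λ A' h r n} {c : M.Cl} {σ : Cel A'} {p : Prt A A' h} {U : Type} [Fintype U] {δ : ℝ}
  {b : Bp J c} {E : EC b p U δ} {O O' Ω : Set (W.Z c).M} {Hs : Set h}

theorem tg_closed : IsClosed {e : E.Y | Tg O O' Hs e} := by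
  have : {e : E.Y | Tg O O' Hs e} = (⋂ z ∉ O, {e | (b.F p U δ).F0.val 8 E.o.Pm e.1.1 z = 0}) ∩
      (⋂ z ∉ O', {e | (b.F p U δ).F0.val 8 E.o.P2 e.1.2.1 z = 0}) ∩ {e | e.1.2.2 = 0} ∩
      ⋂ i : p.H, ⋂ _ : i.1 ∉ Hs, {e | e.2.1 i = 0} ∩ {e | e.2.2 i = 0} := by
    ext e
    simp only [mem_ofPred_eq, mem_inter_iff, mem_iInter]
    exact ⟨fun k => ⟨⟨⟨k.D, k.C⟩, k.S⟩, k.T⟩, fun k => ⟨k.1.1.1, k.1.1.2, k.1.2, k.2⟩⟩
  rw [this]
  refine (((isClosed_biInter fun z _ => ?_).inter (isClosed_biInter fun z _ => ?_)).inter ?_).inter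
    (isClosed_iInter fun i => isClosed_iInter fun _ => .inter ?_ ?_) <;>
    exact isClosed_eq (by fun_prop) continuous_const

/-- derivative at `0` -/
def D0 {Y : Type} [NormedAddCommGroup Y] [NormedSpace ℝ Y] (g : ℝ → Y) (e : Y) : Prop :=
  HasDerivAt g e 0

theorem der_L {Y : Type} [NormedAddCommGroup Y] [NormedSpace ℝ Y] {g : ℝ → Y} {e : Y}
    (d : D0 g e) {Z : Type} [NormedAddCommGroup Z] [NormedSpace ℝ Z] (L : Y →L[ℝ] Z) :
    HasDerivAt (fun s => L (g s)) (L e) 0 :=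
  L.hasFDerivAt.comp_hasDerivAt (0 : ℝ) d

/-- a path with constant outer rows -/
theorem tg_der {g : ℝ → E.Y} {e : E.Y} (d : D0 g e)
    (hD : ∀ z ∉ O, ∀ s, (b.F p U δ).F0.val 8 E.o.Pm (g s).1.1 z =
      (b.F p U δ).F0.val 8 E.o.Pm (g 0).1.1 z)
    (hC : ∀ z ∉ O', ∀ s, (b.F p U δ).F0.val 8 E.o.P2 (g s).1.2.1 z =
      (b.F p U δ).F0.val 8 E.o.P2 (g 0).1.2.1 z) (hS : ∀ s, (g s).1.2.2 = (g 0).1.2.2)
    (hT : ∀ i : p.H, i.1 ∉ Hs → ∀ s, (g s).2.1 i = (g 0).2.1 i ∧ (g s).2.2 i = (g 0).2.2 i) :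
    Tg O O' Hs e :=
  ⟨fun z hz => der_const (der_L d ((b.F p U δ).F0.ev 8 E.o.Pm z ∘L .fst ℝ _ _ ∘L .fst ℝ _ _)) (hD z hz),
    fun z hz => der_const (der_L d ((b.F p U δ).F0.ev 8 E.o.P2 z ∘L .fst ℝ _ _ ∘L .snd ℝ _ _ ∘L
      .fst ℝ _ _)) (hC z hz), der_const (der_L d (.snd ℝ _ _ ∘L .snd ℝ _ _ ∘L .fst ℝ _ _)) hS,
    fun i hi => ⟨der_const (der_L d (.proj i ∘L .fst ℝ _ _ ∘L .snd ℝ _ _)) fun s => (hT i hi s).1,
      der_const (der_L d (.proj i ∘L .snd ℝ _ _ ∘L .snd ℝ _ _)) fun s => (hT i hi s).2⟩⟩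

variable (H : CS σ E) (hΩ : IsClopen Ω) {q : Wi →₀ ℝ} {f : E.C → E.Y} (hf : E.Map q f) (ψ : E.K)
include H hΩ hf

/-- the Dirac row vanishes where the spinor does -/
theorem d_in {y : Pnt E.o r} (hz : ∀ z ∈ Ω, y.cfg.Φ z = 0) {z} (k : z ∈ Ω) :
    (b.F p U δ).F0.val 8 E.o.Pm (f (y.pt 8, ψ)).1.1 z = 0 := by
  have e : y.Eq y (fun x => sn Ω x • E.o.m.p x) 1 :=
    ceq_sn H.F.B (H.F.G _ y.ht) (y.ad0 H.F) hΩ (fun x => by
      by_cases hx : x ∈ Ω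
      · exact (hz x hx).trans (by rw [hz x hx, smul_zero])
      · exact (one_smul ℝ _).symm.trans (by rw [sn, if_neg hx]; rfl)) _
  have p0 := ind_fix (val_proj H.F.sup (by norm_num) (f (y.pt 8, ψ)).1.1 z)
  have p' := Eqv71.p_pm E.o.ok z ((b.F p U δ).F0.val 8 E.o.Pm (f (y.pt 8, ψ)).1.1 z)
  rw [p0] at p'
  rw [(hf.e y ψ).D] at p' ⊢
  by_cases o : z ∈ (b.F p U δ).Om'
  · rw [indicator_of_mem o] at p' ⊢
    have n1 := (nat_tot (q := q) H y y _ 1 rfl trivial e).1 z o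
    rw [Circle.coe_one, Eqv71.cs_one, sn, if_pos k, smul_apply, p', neg_one_smul] at n1
    have := IsAddTorsionFree.of_isTorsionFree ℝ E.o.m.V
    exact neg_eq_self.1 n1.symm
  · exact indicator_of_notMem o _

variable {x : Pnt E.o r} (hz : ∀ z ∈ Ω, x.cfg.Φ z = 0)
include hz

/-- smooth variations of the connection over `Ω` -/
theorem loc_hs (hc : ∀ i : p.H, i.1 ∉ Hs → (J.cut c i).supp ⊆ Ωᶜ) {α}
    (hα : α ∈ Mod61.Hs (b.F p U δ).F0.toPre E.o.P1) (h0 : ∀ z ∉ Ω, α z = 0) :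
    Tg ∅ Ω Hs (Ld f x ψ ((ofV _ 9 _ α, 0, 0), 0)) := by
  have d := der_ln0 H.F x hα (zero_mem _) hf.sm ψ
  rw [ofV_zero H.F.sup (by norm_num)] at d
  have z0 : ∀ s, ∀ z ∉ Ωᶜ, (ln x hα (zero_mem _) s).cfg.Φ z = 0 := fun s z k =>
    (ln_Φ x hα _ s z).trans ((congrArg (_ + ·) (smul_zero s)).trans
      ((add_zero _).trans (hz z (not_not.1 k))))
  have k := fun s => rows_eq H hΩ.compl (x := ln x hα (zero_mem _) 0) (x' := ln x hα (zero_mem _) s)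
    rfl (z0 0) (z0 s) (eqOn_p H hΩ.compl (fun z k a => by simp [ln_W, h0 z k])
      (fun z _ => by simp [ln_Φ]) rfl) q
  refine tg_der d (fun z _ s => ?_) (fun z o s => ?_) (fun s => Prod.ext ?_ ?_) fun i hi s => ⟨?_, ?_⟩
  · by_cases o : z ∈ Ω
    · rw [d_in H hΩ hf ψ (fun z k => z0 s z (not_not.2 k)) o,
        d_in H hΩ hf ψ (fun z k => z0 0 z (not_not.2 k)) o]
    · rw [(hf.e _ ψ).D, (hf.e _ ψ).D]
      by_cases o' : z ∈ (b.F p U δ).Om'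
      · rw [indicator_of_mem o', indicator_of_mem o']; exact (k s).1 z o rfl
      · rw [indicator_of_notMem o', indicator_of_notMem o']; rfl
  · rw [(hf.e _ ψ).C, (hf.e _ ψ).C]
    by_cases o' : z ∈ (b.F p U δ).Om
    · rw [indicator_of_mem o', indicator_of_mem o']; exact (k s).2.1 z o rfl
    · rw [indicator_of_notMem o', indicator_of_notMem o']; rfl
  · exact (hf.e _ ψ).S.trans ((k s).2.2.1.trans (hf.e _ ψ).S.symm)
  · exact (hf.e _ ψ).R.trans ((k s).2.2.2.1.trans (hf.e _ ψ).R.symm)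
  · rw [hf.row, hf.row, (k s).2.2.2.2 i (hc i hi) rfl]
  · rw [hf.nrm, hf.nrm]

/-- **variations of the connection over `Ω`** -/
theorem locA (hc : ∀ i : p.H, i.1 ∉ Hs → (J.cut c i).supp ⊆ Ωᶜ)
    (α : (b.F p U δ).F0.H 9 E.o.P1) (h0 : ∀ z ∉ Ω, (b.F p U δ).F0.val 9 _ α z = 0) :
    Tg ∅ Ω Hs (Ld f x ψ ((α, 0, 0), 0)) := by
  have S := H.F.sup
  have m : ∀ z v, Ω.indicator E.o.P1 z v = v → E.o.P1 z v = v := fun _ _ => ind_fix
  obtain ⟨a, ha⟩ := exists_rs S (by norm_num) hΩ (P := Ω.indicator E.o.P1)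
    (fun z k => indicator_of_mem k _) α h0
  obtain rfl : ex _ 9 _ _ a = α := val_injective S (by norm_num) ((val_ex S (by norm_num) m a).trans ha)
  clear h0 ha
  refine (dense_ofV S (k := 9) (by norm_num)).induction (P := fun a => Tg ∅ Ω Hs (Ld f x ψ
    ((ex _ 9 (Ω.indicator E.o.P1) _ a, 0, 0), 0))) ?_ (tg_closed.preimage (by fun_prop)) a
  rintro _ ⟨u, hu, rfl⟩
  rw [ex_ofV S (by norm_num) m hu]
  exact loc_hs H hΩ hf ψ hz hc (hs_ex S m hu) fun z k => ind_off (Hs_proj S hu z) k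

/-- **variations of the spinor over `Ω`** -/
theorem locF (φ : (b.F p U δ).F0.H 9 E.o.Pp) (h0 : ∀ z ∉ Ω, (b.F p U δ).F0.val 9 _ φ z = 0) :
    Tg Ω ∅ ∅ (Ld f x ψ ((0, φ, 0), 0)) := by
  have S := H.F.sup
  have m : ∀ z v, Ω.indicator E.o.Pp z v = v → E.o.Pp z v = v := fun _ _ => ind_fix
  obtain ⟨a, ha⟩ := exists_rs S (by norm_num) hΩ (P := Ω.indicator E.o.Pp)
    (fun z k => indicator_of_mem k _) φ h0
  obtain rfl : ex _ 9 _ _ a = φ := val_injective S (by norm_num) ((val_ex S (by norm_num) m a).trans ha)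
  clear h0 ha
  refine (dense_ofV S (k := 9) (by norm_num)).induction (P := fun a => Tg Ω ∅ ∅ (Ld f x ψ
    ((0, ex _ 9 (Ω.indicator E.o.Pp) _ a, 0), 0))) ?_ (tg_closed.preimage (by fun_prop)) a
  rintro _ ⟨u, hu, rfl⟩
  rw [ex_ofV S (by norm_num) m hu]
  have hu' := hs_ex S m hu
  have k := fun s => map_sn H hf ψ (y := lφ x hu' s) (y' := lφ x hu' (-s)) rfl rfl
    (lφ_eq H.F x hu' hΩ hz (fun z k => ind_off (Hs_proj S hu z) k) s)
  have d : D0 (fun s => f ((lφ x hu' s).pt 8, ψ)) (Ld f x ψ ((0, ofV _ 9 _ u, 0), 0)) := by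
    simpa only [D0, lφ_pt (k := 8) H.F x hu' (by norm_num), Prod.smul_mk, smul_zero, Prod.mk_add_mk,
      add_zero] using der_line (X := E.C) (x := (x.pt 8, ψ)) (open_C H.F) hf.sm ⟨x.mem_U, trivial⟩
        ((0, ofV _ 9 _ u, 0), 0)
  have e1 := der_even (der_L d (.snd ℝ _ _ ∘L .fst ℝ _ _)) fun s => (k s).2.1
  have e2 := der_even (der_L d (.snd ℝ _ _)) fun s => (k s).2.2
  exact ⟨fun z o => der_even (der_L d ((b.F p U δ).F0.ev 8 E.o.Pm z ∘L .fst ℝ _ _ ∘L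
      .fst ℝ _ _)) fun s => (k s).1 z o,
    fun z _ => (congrArg (fun a => (b.F p U δ).F0.val 8 E.o.P2 a.1 z) e1).trans (congrFun val_zero z),
    congrArg (·.2) e1, fun i _ => ⟨congrArg (·.1 i) e2, congrArg (·.2 i) e2⟩⟩

end Crest.Agent.X212.Trq48.Tl
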